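import Mathlib.MeasureTheory.Measure.Prokhorov
import Mathlib.MeasureTheory.Measure.LevyProkhorovMetric
import Mathlib.MeasureTheory.Measure.TightNormed
import Mathlib.MeasureTheory.Constructions.BorelSpace.Basic
import Mathlib.Analysis.Normed.Group.Constructions

/-!
# P156, D7: extraction of weakly convergent subsequences under a second moment bound
-/

open MeasureTheory Set Filter Topology
open scoped ENNReal NNReal

noncomputable section

namespace Vale.Agent.P156.H814

variable {ι : Type*} [Fintype ι]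

theorem norm_sq_le_sum (x : ι → ℝ) : ‖x‖ ^ 2 ≤ ∑ i, x i ^ 2 := by
  have h0 : 0 ≤ ∑ i, x i ^ 2 := Finset.sum_nonneg fun _ _ => sq_nonneg _
  have h1 : ‖x‖ ≤ Real.sqrt (∑ i, x i ^ 2) := by
    rw [pi_norm_le_iff_of_nonneg (Real.sqrt_nonneg _)]
    intro i
    rw [Real.norm_eq_abs, ← Real.sqrt_sq_eq_abs]
    exact Real.sqrt_le_sqrt (Finset.single_le_sum (f := fun i => x i ^ 2)
      (fun _ _ => sq_nonneg _) (Finset.mem_univ i))
  calc ‖x‖ ^ 2 ≤ Real.sqrt (∑ i, x i ^ 2) ^ 2 := pow_le_pow_left₀ (norm_nonneg _) h1 2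
    _ = _ := Real.sq_sqrt h0

theorem exists_subseq (μ : ℕ → Measure (ι → ℝ))
    [∀ j, IsProbabilityMeasure (μ j)] (M : ℝ)
    (hint : ∀ j, Integrable (fun x => ∑ i, x i ^ 2) (μ j))
    (hM : ∀ j, ∫ x, ∑ i, x i ^ 2 ∂(μ j) ≤ M) :
    ∃ φ : ℕ → ℕ, StrictMono φ ∧ ∃ X : Measure (ι → ℝ), IsProbabilityMeasure X ∧
      Integrable (fun x => ∑ i, x i ^ 2) X ∧ Integrable (fun x => ‖x‖ ^ 2) X ∧
      ∀ ψ : BoundedContinuousFunction (ι → ℝ) ℝ,
        Tendsto (fun j => ∫ x, ψ x ∂(μ (φ j))) atTop (𝓝 (∫ x, ψ x ∂X)) := by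
  set s : (ι → ℝ) → ℝ := fun x => ∑ i, x i ^ 2 with hs
  have hs0 : ∀ x, 0 ≤ s x := fun x => Finset.sum_nonneg fun _ _ => sq_nonneg _
  have hsc : Continuous s := by rw [hs]; fun_prop
  have hM0 : 0 ≤ M := (integral_nonneg (hs0 ·)).trans (hM 0)
  set P : ℕ → ProbabilityMeasure (ι → ℝ) := fun j => ⟨μ j, inferInstance⟩ with hP
  have htight : IsTightMeasureSet {((ν : ProbabilityMeasure (ι → ℝ)) : Measure (ι → ℝ)) |
      ν ∈ range P} := by
    rw [isTightMeasureSet_iff_exists_isCompact_measure_compl_le]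
    intro ε hε
    by_cases hεt : ε = ∞
    · exact ⟨∅, isCompact_empty, fun ν _ => by rw [hεt]; exact le_top⟩
    have hε' : 0 < ε.toReal := ENNReal.toReal_pos hε.ne' hεt
    set c : ℝ := (M + 1) / ε.toReal with hc
    have hc0 : 0 < c := by positivity
    refine ⟨Metric.closedBall 0 (Real.sqrt c), isCompact_closedBall _ _, ?_⟩
    rintro _ ⟨ν, ⟨j, rfl⟩, rfl⟩
    have h1 : (Metric.closedBall (0 : ι → ℝ) (Real.sqrt c))ᶜ ⊆ {x | c ≤ s x} := by
      intro x hx
      simp only [mem_compl_iff, Metric.mem_closedBall, dist_zero_right, not_le] at hx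
      have h2 : Real.sqrt c ^ 2 ≤ ‖x‖ ^ 2 := pow_le_pow_left₀ (Real.sqrt_nonneg _) hx.le 2
      rw [Real.sq_sqrt hc0.le] at h2
      exact h2.trans (norm_sq_le_sum x)
    have h3 := mul_meas_ge_le_integral_of_nonneg (ae_of_all _ hs0) (hint j) c
    have h4 : (μ j).real {x | c ≤ s x} ≤ ε.toReal := by
      have h5 : c * (μ j).real {x | c ≤ s x} ≤ M := h3.trans (hM j)
      have h6 : (μ j).real {x | c ≤ s x} ≤ M / c := by
        rw [le_div_iff₀ hc0, mul_comm]; exact h5
      refine h6.trans ?_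
      rw [hc, div_div_eq_mul_div, div_le_iff₀ (by positivity)]
      nlinarith
    calc (μ j) (Metric.closedBall (0 : ι → ℝ) (Real.sqrt c))ᶜ ≤ μ j {x | c ≤ s x} :=
          measure_mono h1
      _ = ENNReal.ofReal ((μ j).real {x | c ≤ s x}) := by
          rw [Measure.real, ENNReal.ofReal_toReal (measure_ne_top _ _)]
      _ ≤ ENNReal.ofReal ε.toReal := ENNReal.ofReal_le_ofReal h4
      _ = ε := ENNReal.ofReal_toReal hεt
  have hcomp := isCompact_closure_of_isTightMeasureSet htight
  obtain ⟨X, _, φ, hφ, hlim⟩ := hcomp.isSeqCompact (fun j => subset_closure (mem_range_self j))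
  have hlim' := (ProbabilityMeasure.tendsto_iff_forall_integral_tendsto).mp hlim
  have hX1 : Integrable s (X : Measure (ι → ℝ)) := by
    have h1 : ∀ R : ℕ, ∫⁻ x, ENNReal.ofReal (min (R : ℝ) (s x)) ∂(X : Measure (ι → ℝ)) ≤
        ENNReal.ofReal M := by
      intro R
      let ψ : BoundedContinuousFunction (ι → ℝ) ℝ :=
        BoundedContinuousFunction.ofNormedAddCommGroup (fun x => min (R : ℝ) (s x))
          (continuous_const.min hsc) R (by
            intro x
            rw [Real.norm_eq_abs, abs_of_nonneg (le_min (Nat.cast_nonneg R) (hs0 x))]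
            exact min_le_left _ _)
      have hψ : ∀ x, ψ x = min (R : ℝ) (s x) := fun _ => rfl
      have h2 : ∫ x, ψ x ∂(X : Measure (ι → ℝ)) ≤ M := by
        refine le_of_tendsto (hlim' ψ) (Eventually.of_forall fun j => ?_)
        refine le_trans ?_ (hM (φ j))
        exact integral_mono (ψ.integrable _) (hint _) fun x => min_le_right _ _
      have h6 := ofReal_integral_eq_lintegral_ofReal (ψ.integrable (X : Measure (ι → ℝ)))
        (ae_of_all _ fun x => (le_min (Nat.cast_nonneg R) (hs0 x) : (0 : ℝ) ≤ ψ x))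
      exact h6.symm.le.trans (ENNReal.ofReal_le_ofReal h2)
    have h3 : ∫⁻ x, ENNReal.ofReal (s x) ∂(X : Measure (ι → ℝ)) ≤ ENNReal.ofReal M := by
      have h4 := lintegral_liminf_le (μ := (X : Measure (ι → ℝ))) (u := atTop)
        (f := fun (R : ℕ) x => ENNReal.ofReal (min (R : ℝ) (s x)))
        (fun R => ENNReal.measurable_ofReal.comp (continuous_const.min hsc).measurable)
      have h5 : ∀ x, liminf (fun R : ℕ => ENNReal.ofReal (min (R : ℝ) (s x))) atTop =
          ENNReal.ofReal (s x) := by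
        intro x
        refine Tendsto.liminf_eq (tendsto_const_nhds.congr' ?_)
        obtain ⟨N, hN⟩ := exists_nat_ge (s x)
        filter_upwards [eventually_ge_atTop N] with R hR
        have : s x ≤ (R : ℝ) := hN.trans (by exact_mod_cast hR)
        rw [min_eq_right this]
      simp only [h5] at h4
      refine h4.trans ?_
      refine liminf_le_of_frequently_le' (Eventually.of_forall h1).frequently
    refine ⟨hsc.aestronglyMeasurable, ?_⟩
    rw [hasFiniteIntegral_iff_ofReal (ae_of_all _ hs0)]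
    exact h3.trans_lt ENNReal.ofReal_lt_top
  refine ⟨φ, hφ, X, inferInstance, hX1, ?_, fun ψ => hlim' ψ⟩
  refine hX1.mono' (by fun_prop) (ae_of_all _ fun x => ?_)
  rw [Real.norm_eq_abs, abs_of_nonneg (by positivity)]
  exact norm_sq_le_sum x

end Vale.Agent.P156.H814
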