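import Vale.Agent.P156.R2.Spec
import Vale.Agent.P156.H613.FlatStar

/-!
# P156, D7: the Gaussian wave in the coordinates of `SpecTII`
-/

open MeasureTheory ProbabilityTheory Matrix Set
open scoped ENNReal NNReal

noncomputable section

namespace Vale.Agent.P156.H814

open Vale.Agent.P156 Vale.Agent.P156.H877 Vale.Agent.P156.H849
  Vale.Agent.P156.H653 _root_.P156.H613

theorem wave_const {q : ℕ} (hq : 1 ≤ q) {lam : ℝ} (hlam : lam ^ 2 ≤ ((q : ℝ) + 1) ^ 2) :
    Vale.Agent.P156.H653.sg q lam * Real.sqrt (((q : ℝ) + 1) / q) =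
      Real.sqrt ((((q + 1 : ℕ) : ℝ) ^ 2 - lam ^ 2) /
        (((q + 1 : ℕ) : ℝ) * (((q + 1 : ℕ) : ℝ) - 1))) := by
  have hq0 : (0 : ℝ) < q := by exact_mod_cast hq
  have hd : (0 : ℝ) < (q : ℝ) + 1 := by linarith
  unfold Vale.Agent.P156.H653.sg cc
  have h1 : 0 ≤ 1 - (lam / ((q : ℝ) + 1)) ^ 2 := by
    rw [div_pow, sub_nonneg, div_le_one (by positivity)]
    exact hlam
  rw [← Real.sqrt_mul h1]
  congr 1
  push_cast
  have e4 : (q : ℝ) + 1 - 1 = q := by ring
  rw [e4]
  field_simp

/-- Matrix of a linear map of `Ek k`. -/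
def matOf {k : ℕ} (A : Ek k →L[ℝ] Ek k) : Matrix (Fin k) (Fin k) ℝ :=
  fun a b => A (EuclideanSpace.single b (1 : ℝ)) a

theorem apply_eq {k : ℕ} (A : Ek k →L[ℝ] Ek k) (v : Ek k) (a : Fin k) :
    A v a = ∑ b, matOf A a b * v b := by
  have h1 : v = ∑ b, v b • EuclideanSpace.single b (1 : ℝ) := by
    ext c
    simp [Pi.single_apply]
  conv_lhs => rw [h1]
  rw [map_sum]
  simp only [map_smul, matOf]
  simp [mul_comm]

/-- Forget the `L²` structure. -/
def pairL (d k : ℕ) (s : StarSp d k) : (Fin k → ℝ) × (Fin d → Fin k → ℝ) :=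
  (fun a => s.1 a, fun j a => s.2 j a)

theorem measurable_pairL (d k : ℕ) : Measurable (pairL d k) := by
  unfold pairL
  fun_prop

theorem gauss_of_wave {q k : ℕ} (hq : 1 ≤ q) {lam : ℝ} (hlam : lam ^ 2 ≤ ((q : ℝ) + 1) ^ 2)
    (A : Ek k →L[ℝ] Ek k) : ∃ B : Matrix (Fin k) (Fin k) ℝ,
      ∀ X : Measure (Option (Fin (q + 1)) × Fin k → ℝ),
        X.map (starE (q + 1) k) = (waveM q k lam).map (siteMap A) →
        X.map (fun x => ((fun a => x (none, a)), fun (j : Fin (q + 1)) a => x (some j, a))) =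
          gaussStar (q + 1) k lam B := by
  refine ⟨matOf A, fun X hX => ?_⟩
  have hmW : Measurable (waveMap q k lam) := by
    unfold waveMap
    fun_prop
  have hmA : Measurable (siteMap (d := q + 1) A) := by
    unfold siteMap
    fun_prop
  have h1 : X.map (fun x => ((fun a => x (none, a)), fun (j : Fin (q + 1)) a => x (some j, a))) =
      (X.map (starE (q + 1) k)).map (pairL (q + 1) k) := by
    rw [Measure.map_map (measurable_pairL _ _) (starE (q + 1) k).measurable]
    rfl
  rw [h1, hX, waveM, ← gauss_starE, Measure.map_map hmW (starE (q + 1) k).measurable,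
    Measure.map_map hmA (hmW.comp (starE (q + 1) k).measurable),
    Measure.map_map (measurable_pairL _ _) (hmA.comp (hmW.comp (starE (q + 1) k).measurable)),
    gaussStar, Vale.Agent.P156.H877.sg]
  congr 1
  funext g
  simp only [Function.comp_apply, starE_apply, waveMap, siteMap, pairL, waveOf]
  refine Prod.ext ?_ ?_
  · funext a
    simp only
    rw [apply_eq]
  · funext j a
    simp only
    rw [apply_eq]
    refine Finset.sum_congr rfl fun b _ => ?_
    congr 1
    rw [← wave_const hq hlam]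
    simp only [PiLp.add_apply, PiLp.smul_apply, PiLp.sub_apply, smul_eq_mul]
    have hsum : (∑ i : Fin (q + 1), (WithLp.toLp 2 fun a => g (some i, a) : Ek k)).ofLp b =
        ∑ i : Fin (q + 1), g (some i, b) := by
      simp
    rw [hsum]
    unfold cc
    push_cast
    ring

end Vale.Agent.P156.H814
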