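import Vale.Agent.P156.H814.Lim
import Vale.Agent.P156.H690.Sel
import Vale.Agent.P156.H814.Proh
import Vale.Agent.P156.H814.WaveGauss

/-!
# P156, D7: Theorem II (`SpecTII`)
-/

open MeasureTheory ProbabilityTheory Matrix Set Filter Topology
open scoped ENNReal NNReal

noncomputable section

namespace Vale.Agent.P156.H814

open Vale.Agent.P156 Vale.Agent.P156.H690 Vale.Agent.P156.H877 Vale.Agent.P156.H849
  Vale.Agent.P156.H653 Vale.Agent.P156.Lim _root_.P156.H613

/-- Interface: the entropy characterisation of Gaussian waves (blocks D5, D6). -/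
def WaveOfEntropy : Prop := ∀ (q k : ℕ) (lam : ℝ), 2 ≤ q → lam ^ 2 < 4 * q →
  ∀ (mu : Measure (StarSp (q + 1) k)) [IsProbabilityMeasure mu] (mue : Measure (Ek k × Ek k)),
  (∀ l, mu.map (edgeP l) = mue) → mue.map Prod.swap = mue →
  Integrable (fun x => ‖x.1‖ ^ 2) mu → (∀ᵐ x ∂mu, ∑ j, x.2 j = lam • x.1) →
  ∀ t0 : ℝ, 0 < t0 → -(k * Uval q lam) ≤ Fent lam mu t0 →
  ∃ A : Ek k →L[ℝ] Ek k, mu = (waveM q k lam).map (siteMap A)

/-- The limit of star laws of almost eigenvectors of typical graphs is a Gaussian wave. -/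
theorem wave_of_starLim (hW : WaveOfEntropy) {q k : ℕ} (hq : 2 ≤ q) (hk : 0 < k) {lam : ℝ}
    (hlam : |lam| < 2 * Real.sqrt q) {n : ℕ → ℕ} {G : ∀ j, SimpleGraph (Fin (n j))}
    (hT : TypSeq (q + 1) k lam n G) (f : ∀ j, Fin (n j) → Fin k → ℝ)
    (hf : ∀ j, ∑ v, ∑ a, f j v a ^ 2 ≤ k * n j) {δ : ℕ → ℝ} (hδ : Tendsto δ atTop (𝓝 0))
    (hr : ∀ j, ∑ v, ∑ a, ((∑ w, adj (G j) v w * f j w a) - lam * f j v a) ^ 2 ≤ δ j * n j)
    (X : Measure (Option (Fin (q + 1)) × Fin k → ℝ)) [IsProbabilityMeasure X]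
    (hX1 : Integrable (fun x => ∑ i, x i ^ 2) X) (hX2 : Integrable (fun x => ‖x‖ ^ 2) X)
    (hX : StarLim (q + 1) k n G f X) :
    ∃ B : Matrix (Fin k) (Fin k) ℝ,
      X.map (fun x => ((fun a => x (none, a)), fun (j : Fin (q + 1)) a => x (some j, a))) =
        gaussStar (q + 1) k lam B := by
  have hsupp := hX.support hT.reg hT.pos hδ hr
  have hF := fent_ge hq hk hlam hT f hf X hX2 hsupp hX one_pos
  have hm := (starE (q + 1) k).measurable
  have hp : IsProbabilityMeasure (X.map (starE (q + 1) k)) :=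
    Measure.isProbabilityMeasure_map hm.aemeasurable
  have hlam2 : lam ^ 2 < 4 * q := by
    have h2 := abs_nonneg lam
    have h3 : |lam| ^ 2 < (2 * Real.sqrt q) ^ 2 := pow_lt_pow_left₀ hlam h2 (by norm_num)
    rw [sq_abs, mul_pow, Real.sq_sqrt (Nat.cast_nonneg q)] at h3
    linarith
  obtain ⟨A, hA⟩ := hW q k lam hq hlam2 (X.map (starE (q + 1) k)) (X.map (edgeF 0))
    (fun l => by rw [edgeP_starE]; exact hX.edge_eq hT.reg hT.pos l 0)
    (hX.edge_swap hT.reg hT.pos 0)
    (by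
      rw [integrable_map_measure (by fun_prop) hm.aemeasurable]
      refine hX1.mono' (by fun_prop) (ae_of_all _ fun x => ?_)
      rw [Function.comp_apply, starE_apply, Real.norm_eq_abs, abs_of_nonneg (by positivity),
        EuclideanSpace.norm_sq_eq]
      have h9 : ∀ F : Option (Fin (q + 1)) × Fin k → ℝ, ∑ i, F i = ∑ x, ∑ a, F (x, a) :=
        fun F => Fintype.sum_prod_type F
      rw [h9, Fintype.sum_option]
      simp only [Real.norm_eq_abs, sq_abs]
      have h10 : 0 ≤ ∑ i, ∑ a, x (some i, a) ^ 2 :=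
        Finset.sum_nonneg fun _ _ => Finset.sum_nonneg fun _ _ => sq_nonneg _
      linarith)
    (by
      rw [ae_map_iff hm.aemeasurable]
      · filter_upwards [hsupp] with x hx
        rw [starE_apply]
        ext a
        have := hx a
        simp only [PiLp.smul_apply, smul_eq_mul]
        rw [← this]
        simp
      · exact measurableSet_eq_fun (by fun_prop) (by fun_prop))
    1 one_pos hF
  obtain ⟨B, hB⟩ := gauss_of_wave (by omega : 1 ≤ q) (lam_sq_le hlam) A
  exact ⟨B, hB X hA⟩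

/-- The map from flat stars to pairs. -/
def pairF (d k : ℕ) (x : Option (Fin d) × Fin k → ℝ) : (Fin k → ℝ) × (Fin d → Fin k → ℝ) :=
  (fun a => x (none, a), fun j a => x (some j, a))

theorem continuous_pairF (d k : ℕ) : Continuous (pairF d k) := by
  unfold pairF
  fun_prop

theorem starAvg_eq {n d k : ℕ} (G : SimpleGraph (Fin n)) (f : Fin n → Fin k → ℝ)
    (ψ : (Fin k → ℝ) × (Fin d → Fin k → ℝ) → ℝ) :
    starAvg d G f ψ = avg (starsF d G) (fun p => ψ (pairF d k (onStar f p))) := rfl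

/-- **Theorem II.** -/
theorem specTII (hW : WaveOfEntropy) {d : ℕ} (hd : 3 ≤ d) (hFix : SpecFix d) : SpecTII d := by
  intro lam hlam k Ψ ε hε
  by_contra hcon
  push Not at hcon
  obtain ⟨q, rfl⟩ : ∃ q, d = q + 1 := ⟨d - 1, by omega⟩
  have hq : 2 ≤ q := by omega
  have hlam' : |lam| < 2 * Real.sqrt q := by
    have h1 : (((q + 1 : ℕ) : ℝ) - 1) = q := by push_cast; ring
    rwa [h1] at hlam
  have h1 : ∀ j : ℕ, ∃ᶠ n in admissible (q + 1), ε < prob (regularGraphs n (q + 1))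
      (fun G => ∃ f : Fin n → Fin k → ℝ, (∑ v, ∑ a, f v a ^ 2 ≤ k * n) ∧
      (∑ v, ∑ a, ((∑ w, adj G v w * f w a) - lam * f v a) ^ 2 ≤ 1 / ((j : ℝ) + 1) * n) ∧
      ∀ B : Matrix (Fin k) (Fin k) ℝ, ∃ ψ ∈ Ψ,
        ε < |starAvg (q + 1) G f ψ - ∫ x, ψ x ∂(gaussStar (q + 1) k lam B)|) := by
    intro j
    exact hcon (1 / ((j : ℝ) + 1)) (by positivity)
  obtain ⟨n, G, hT, hBad⟩ := typSeq_select hFix hd hlam k
    (fun j n G => ∃ f : Fin n → Fin k → ℝ, (∑ v, ∑ a, f v a ^ 2 ≤ k * n) ∧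
      (∑ v, ∑ a, ((∑ w, adj G v w * f w a) - lam * f v a) ^ 2 ≤ 1 / ((j : ℝ) + 1) * n) ∧
      ∀ B : Matrix (Fin k) (Fin k) ℝ, ∃ ψ ∈ Ψ,
        ε < |starAvg (q + 1) G f ψ - ∫ x, ψ x ∂(gaussStar (q + 1) k lam B)|) hε h1
  choose f hf1 hf2 hf3 using hBad
  rcases Nat.eq_zero_or_pos k with rfl | hk
  · -- trivial case: no components
    obtain ⟨ψ, _, hψ⟩ := hf3 0 0
    have hs := starsF_nonempty (hT.reg 0) (hT.pos 0)
    have e1 : starAvg (q + 1) (G 0) (f 0) ψ = ψ 0 := by
      rw [starAvg_eq]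
      have : ∀ p, ψ (pairF (q + 1) 0 (onStar (f 0) p)) = ψ 0 := fun p => by
        congr 1
        exact Subsingleton.elim _ _
      simp only [this]
      exact avg_const hs _
    have e2 : ∫ x, ψ x ∂(gaussStar (q + 1) 0 lam 0) = ψ 0 := by
      have : ∀ x, ψ x = ψ 0 := fun x => by
        congr 1
        exact Subsingleton.elim _ _
      simp only [this]
      have : IsProbabilityMeasure (gaussStar (q + 1) 0 lam 0) := by
        unfold gaussStar
        refine Measure.isProbabilityMeasure_map (Measurable.aemeasurable ?_)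
        exact measurable_of_subsingleton_codomain _
      simp
    rw [e1, e2, sub_self, abs_zero] at hψ
    exact absurd hε (not_lt.mpr hψ.le)
  -- the star laws
  set μ : ℕ → Measure (Option (Fin (q + 1)) × Fin k → ℝ) := fun j =>
    sampleLaw (starsF (q + 1) (G j)) (fun p => onStar (f j) p) with hμ
  have hp : ∀ j, IsProbabilityMeasure (μ j) := fun j =>
    isProbabilityMeasure_sampleLaw (starsF_nonempty (hT.reg j) (hT.pos j)) _
  have hm : Measurable fun x : Option (Fin (q + 1)) × Fin k → ℝ => ∑ i, x i ^ 2 := by fun_prop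
  obtain ⟨φ, hφ, X, hXp, hX1, hX2, hX⟩ := exists_subseq μ (((q + 1 : ℕ) + 1) * k)
    (fun j => by
      rw [hμ]
      simp only [sampleLaw]
      refine Integrable.smul_measure ?_ (by
        rw [ENNReal.inv_ne_top]
        simpa using (starsF_nonempty (hT.reg j) (hT.pos j)).card_pos.ne')
      rw [integrable_finsetSum_measure]
      intro p _
      exact integrable_dirac' hm.stronglyMeasurable (by simp))
    (fun j => by
      rw [hμ]
      simp only
      rw [integral_sampleLaw _ _ hm]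
      exact avg_normsq_le hT.reg hT.pos hf1 j)
  have hlim : StarLim (q + 1) k (fun j => n (φ j)) (fun j => G (φ j)) (fun j => f (φ j)) X := by
    intro F
    refine (hX F).congr fun j => ?_
    exact integral_sampleLaw _ _ F.continuous.measurable
  have hδ : Tendsto (fun j => 1 / ((φ j : ℝ) + 1)) atTop (𝓝 0) :=
    tendsto_one_div_add_atTop_nhds_zero_nat.comp hφ.tendsto_atTop
  obtain ⟨B, hB⟩ := wave_of_starLim hW hq hk hlam' (hT.comp hφ) (fun j => f (φ j))
    (fun j => hf1 (φ j)) hδ (fun j => hf2 (φ j)) X hX1 hX2 hlim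
  have hc : ∀ ψ ∈ Ψ, ∀ᶠ j in atTop, |starAvg (q + 1) (G (φ j)) (f (φ j)) ψ -
      ∫ x, ψ x ∂(gaussStar (q + 1) k lam B)| < ε := by
    intro ψ _
    have h3 := IsLimitLaw.map_continuous hlim (continuous_pairF (q + 1) k) ψ
    have h4 : X.map (pairF (q + 1) k) = gaussStar (q + 1) k lam B := hB
    rw [h4] at h3
    have h5 := (Metric.tendsto_atTop.mp h3) ε hε
    obtain ⟨N, hN⟩ := h5
    filter_upwards [eventually_ge_atTop N] with j hj
    have h6 := hN j hj
    rwa [Real.dist_eq] at h6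
  obtain ⟨j, hj⟩ := ((Finset.eventually_all Ψ).mpr hc).exists
  obtain ⟨ψ, hψ, hlt⟩ := hf3 (φ j) B
  exact absurd (hj ψ hψ) (not_lt.mpr hlt.le)

end Vale.Agent.P156.H814
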