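import Vale.Agent.P156.R2.Spec
import Vale.Agent.P156.H690.D1

/-!
# P156, D2/D4: common definitions

`TypSeq d k lam n G`: the graphs `G j` (on `Fin (n j)`) form a typical sequence of `d`-regular
graphs, as far as the proof of Theorem II at the energy `lam` for `k`-dimensional fields is
concerned.
-/

open MeasureTheory Filter Topology Matrix

noncomputable section

namespace Vale.Agent.P156.H814

open Vale.Agent.P156 Vale.Agent.P156.H690

/-- The coordinatewise quantiser with mesh `1/m` and window `(-m,m)`. -/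
def qt (m : ℕ) (x : ℝ) : Fin (2 * m ^ 2 + 1) :=
  if |x| < m then ⟨min ⌊(x + m) * m⌋₊ (2 * m ^ 2), by omega⟩ else Fin.last (2 * m ^ 2)

/-- The vertex of a star at the node `x` (`none` = centre). -/
def nd {n d : ℕ} (p : Fin n × (Fin d → Fin n)) (x : Option (Fin d)) : Fin n := x.elim p.1 p.2

open Classical in
/-- The (ordered) stars of `G`. -/
def starsF {n : ℕ} (d : ℕ) (G : SimpleGraph (Fin n)) : Finset (Fin n × (Fin d → Fin n)) :=
  Finset.univ.filter (fun p => IsStar G p.1 p.2)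

/-- The field `f` on the star `p`, flat coordinates. -/
def onStar {n d k : ℕ} (f : Fin n → Fin k → ℝ) (p : Fin n × (Fin d → Fin n))
    (i : Option (Fin d) × Fin k) : ℝ := f (nd p i.1) i.2

/-- `z_l = lam + i / (l+1)`. -/
def zl (lam : ℝ) (l : ℕ) : ℂ := (lam : ℂ) + ((1 / ((l : ℝ) + 1) : ℝ) : ℂ) * Complex.I

/-- The tree resolvent on the star, `m` the cavity Stieltjes transform at `z`. -/
def Kz (d : ℕ) (z m : ℂ) (x y : Option (Fin d)) : ℂ :=
  (-1 / (z + d * m)) * (-m) ^ starDist x y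

/-- The limit of `(1/n) log |det (A - z)|`. -/
def Um (d : ℕ) (m : ℂ) : ℝ := -(((d : ℝ) - 2) / 2) * Real.log ‖1 - m ^ 2‖ - Real.log ‖m‖

/-- Typical sequences of `d`-regular graphs. -/
structure TypSeq (d k : ℕ) (lam : ℝ) (n : ℕ → ℕ) (G : ∀ j, SimpleGraph (Fin (n j))) : Prop where
  reg : ∀ j, G j ∈ regularGraphs (n j) d
  pos : ∀ j, 0 < n j
  lim : Tendsto n atTop atTop
  cnt : ∀ m : ℕ, ∃ K : ℕ, ∀ᶠ j in atTop,
    ∑ c : Fin (n j) → (Fin k → Fin (2 * m ^ 2 + 1)), Real.exp (-(n j * Phi (G j) d c)) ≤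
      ((n j : ℝ) + 1) ^ K
  cov : ∀ (l : ℕ) (m : ℂ), IsTreeStieltjes d (zl lam l) m → ∀ x y : Option (Fin d),
    Tendsto (fun j => avg (starsF d (G j)) fun p =>
      |(resD (adj (G j)) ∅ (zl lam l) (nd p x) (nd p y)).im - (Kz d (zl lam l) m x y).im|)
      atTop (𝓝 0)
  det : ∀ (l : ℕ) (m : ℂ), IsTreeStieltjes d (zl lam l) m →
    Tendsto (fun j => Real.log ‖(cutMat (adj (G j)) ∅ (zl lam l)).det‖ / n j) atTop (𝓝 (Um d m))

end Vale.Agent.P156.H814
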