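import Mathlib

/-!
# P156, D2: the volume argument

Lower bound for the number of colourings `Q ∘ (f + L ξ)`, `ξ` standard Gaussian, through volumes.
-/

open MeasureTheory ProbabilityTheory Matrix Set
open scoped ENNReal NNReal

namespace Vale.Agent.P156.H814

variable {ι : Type*} [Fintype ι]

/-- Density of a product measure. -/
theorem pi_withDensity' {X : ι → Type*} [∀ i, MeasurableSpace (X i)]
    (μ : ∀ i, Measure (X i)) [∀ i, SigmaFinite (μ i)] (f : ∀ i, X i → ℝ)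
    (h0 : ∀ i x, 0 ≤ f i x) (hi : ∀ i, Integrable (f i) (μ i)) :
    (Measure.pi fun i => (μ i).withDensity fun x => ENNReal.ofReal (f i x))
      = (Measure.pi μ).withDensity fun y => ENNReal.ofReal (∏ i, f i (y i)) := by
  have hsf : ∀ i, IsFiniteMeasure ((μ i).withDensity fun x => ENNReal.ofReal (f i x)) := fun i =>
    isFiniteMeasure_withDensity_ofReal (hi i).2
  refine Measure.pi_eq fun s hs => ?_
  rw [withDensity_apply _ (MeasurableSet.univ_pi hs), Measure.restrict_pi_pi,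
    ← ofReal_integral_eq_lintegral_ofReal, integral_fintype_prod_eq_prod,
    ENNReal.ofReal_prod_of_nonneg]
  · refine Finset.prod_congr rfl fun i _ => ?_
    rw [withDensity_apply _ (hs i), ← ofReal_integral_eq_lintegral_ofReal]
    · exact (hi i).restrict
    · exact ae_of_all _ (h0 i)
  · exact fun i _ => integral_nonneg (h0 i)
  · exact Integrable.fintype_prod_dep fun i => (hi i).restrict
  · exact ae_of_all _ fun y => Finset.prod_nonneg fun i _ => h0 i _

/-- The standard Gaussian law on `ι → ℝ`. -/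
noncomputable abbrev stdG (ι : Type*) [Fintype ι] : Measure (ι → ℝ) :=
  Measure.pi (fun _ : ι => gaussianReal 0 1)

theorem stdG_eq : stdG ι =
    (volume : Measure (ι → ℝ)).withDensity
      fun y => ENNReal.ofReal (∏ i, gaussianPDFReal 0 1 (y i)) := by
  have h : (gaussianReal 0 1) = (volume : Measure ℝ).withDensity
      fun x => ENNReal.ofReal (gaussianPDFReal 0 1 x) := by
    rw [gaussianReal_of_var_ne_zero _ one_ne_zero]
    rfl
  unfold stdG
  rw [h]
  exact pi_withDensity' (fun _ : ι => (volume : Measure ℝ)) (fun _ => gaussianPDFReal 0 1)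
    (fun _ x => gaussianPDFReal_nonneg 0 1 x) (fun _ => integrable_gaussianPDFReal 0 1)

theorem prod_pdf (y : ι → ℝ) : ∏ i, gaussianPDFReal 0 1 (y i)
    = (Real.sqrt (2 * Real.pi))⁻¹ ^ Fintype.card ι * Real.exp (-(∑ i, y i ^ 2) / 2) := by
  unfold gaussianPDFReal
  rw [Finset.prod_mul_distrib, Finset.prod_const, Finset.card_univ, ← Real.exp_sum]
  congr 2
  · simp
  · rw [← Finset.sum_div, Finset.sum_neg_distrib]
    simp [neg_div]

/-- Gaussian measure of a set outside a ball is at most its volume times the density there. -/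
theorem stdG_le_vol (S : Set (ι → ℝ)) (hS : MeasurableSet S) (a : ℝ) :
    stdG ι (S ∩ {y | a ≤ ∑ i, y i ^ 2}) ≤
      ENNReal.ofReal ((Real.sqrt (2 * Real.pi))⁻¹ ^ Fintype.card ι * Real.exp (-a / 2)) *
        volume S := by
  rw [stdG_eq]
  have hm : MeasurableSet {y : ι → ℝ | a ≤ ∑ i, y i ^ 2} := by
    apply measurableSet_le measurable_const
    fun_prop
  rw [withDensity_apply _ (hS.inter hm)]
  calc ∫⁻ y in S ∩ {y | a ≤ ∑ i, y i ^ 2}, ENNReal.ofReal (∏ i, gaussianPDFReal 0 1 (y i))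
      ≤ ∫⁻ _ in S ∩ {y | a ≤ ∑ i, y i ^ 2},
          ENNReal.ofReal ((Real.sqrt (2 * Real.pi))⁻¹ ^ Fintype.card ι * Real.exp (-a / 2)) := by
        refine setLIntegral_mono' (hS.inter hm) ?_
        rintro y ⟨_, hy⟩
        apply ENNReal.ofReal_le_ofReal
        rw [prod_pdf]
        have : a ≤ ∑ i, y i ^ 2 := hy
        gcongr
    _ = ENNReal.ofReal ((Real.sqrt (2 * Real.pi))⁻¹ ^ Fintype.card ι * Real.exp (-a / 2)) *
          volume (S ∩ {y | a ≤ ∑ i, y i ^ 2}) := by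
        rw [setLIntegral_const]
    _ ≤ _ := by
        gcongr
        exact inter_subset_left

theorem integral_exp_sq (s : ℝ) (hs : 0 ≤ s) :
    ∫ y, Real.exp (-s * y ^ 2) ∂(gaussianReal 0 1) = (Real.sqrt (1 + 2 * s))⁻¹ := by
  rw [integral_gaussianReal_eq_integral_smul one_ne_zero]
  have h : ∀ y : ℝ, gaussianPDFReal 0 1 y • Real.exp (-s * y ^ 2)
      = (Real.sqrt (2 * Real.pi))⁻¹ * Real.exp (-(s + 1 / 2) * y ^ 2) := by
    intro y
    unfold gaussianPDFReal
    rw [smul_eq_mul, mul_assoc, ← Real.exp_add]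
    simp only [NNReal.coe_one, mul_one, sub_zero]
    congr 2
    ring
  simp_rw [h]
  rw [integral_const_mul, integral_gaussian, ← Real.sqrt_inv, ← Real.sqrt_inv,
    ← Real.sqrt_mul (by positivity)]
  congr 1
  have : (1 + 2 * s) ≠ 0 := by positivity
  have h2 : s + 1 / 2 ≠ 0 := by positivity
  field_simp
  ring

theorem integrable_exp_sq (s : ℝ) (hs : 0 ≤ s) :
    Integrable (fun y => Real.exp (-s * y ^ 2)) (gaussianReal 0 1) := by
  refine Integrable.of_bound (C := 1) (by fun_prop) (ae_of_all _ fun y => ?_)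
  rw [Real.norm_eq_abs, abs_of_pos (Real.exp_pos _), Real.exp_le_one_iff]
  nlinarith [sq_nonneg y]

theorem integral_exp_sum_sq (s : ℝ) (hs : 0 ≤ s) :
    ∫ y, Real.exp (-s * ∑ i, y i ^ 2) ∂(stdG ι) = (Real.sqrt (1 + 2 * s))⁻¹ ^ Fintype.card ι := by
  have h : ∀ y : ι → ℝ, Real.exp (-s * ∑ i, y i ^ 2) = ∏ i, Real.exp (-s * y i ^ 2) := by
    intro y
    rw [Finset.mul_sum, Real.exp_sum]
  simp_rw [h]
  rw [integral_fintype_prod_eq_prod (fun _ y => Real.exp (-s * y ^ 2))]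
  simp_rw [integral_exp_sq s hs]
  rw [Finset.prod_const, Finset.card_univ]

theorem integrable_exp_sum_sq (s : ℝ) (hs : 0 ≤ s) :
    Integrable (fun y : ι → ℝ => Real.exp (-s * ∑ i, y i ^ 2)) (stdG ι) := by
  have hc : Continuous (fun y : ι → ℝ => Real.exp (-s * ∑ i, y i ^ 2)) := by fun_prop
  refine Integrable.of_bound (C := 1) hc.aestronglyMeasurable (ae_of_all _ fun y => ?_)
  rw [Real.norm_eq_abs, abs_of_pos (Real.exp_pos _), Real.exp_le_one_iff]
  have : 0 ≤ ∑ i, y i ^ 2 := Finset.sum_nonneg fun i _ => sq_nonneg _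
  nlinarith

/-- Lower tail of the chi-square law. -/
theorem stdG_ball (κ : ℝ) (hκ : 0 ≤ κ) :
    stdG ι {y | ∑ i, y i ^ 2 < (1 - κ) * Fintype.card ι} ≤
      ENNReal.ofReal (Real.exp (-(κ ^ 2 / 4) * Fintype.card ι)) := by
  set N : ℝ := (Fintype.card ι : ℝ) with hN
  have hmeas : MeasurableSet {y : ι → ℝ | ∑ i, y i ^ 2 < (1 - κ) * N} := by
    apply measurableSet_lt (by fun_prop) measurable_const
  rw [← ofReal_measureReal]
  apply ENNReal.ofReal_le_ofReal
  have h1 : (stdG ι).real {y | ∑ i, y i ^ 2 < (1 - κ) * N} ≤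
      ∫ y, Real.exp (κ / 2 * ((1 - κ) * N)) * Real.exp (-(κ / 2) * ∑ i, y i ^ 2) ∂(stdG ι) := by
    rw [← integral_indicator_one hmeas]
    refine integral_mono ?_ ?_ ?_
    · exact (integrable_const _).indicator hmeas
    · exact (integrable_exp_sum_sq (κ / 2) (by positivity)).const_mul _
    · intro y
      simp only [Set.indicator_apply, Set.mem_ofPred_eq, Pi.one_apply]
      split_ifs with h
      · rw [← Real.exp_add]
        apply Real.one_le_exp
        nlinarith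
      · positivity
  refine h1.trans ?_
  rw [integral_const_mul, integral_exp_sum_sq _ (by positivity)]
  have h2 : (Real.sqrt (1 + 2 * (κ / 2)))⁻¹ ≤ Real.exp (-(κ / 2) + κ ^ 2 / 4) := by
    have h3 : κ - κ ^ 2 / 2 ≤ Real.log (1 + κ) := by
      have h5 := Real.le_log_one_add_of_nonneg hκ
      refine le_trans ?_ h5
      rw [le_div_iff₀ (by linarith)]
      nlinarith [mul_nonneg hκ (sq_nonneg κ)]
    have h4 : Real.exp (κ - κ ^ 2 / 2) ≤ 1 + κ := by
      rw [← Real.exp_log (show (0 : ℝ) < 1 + κ by positivity)]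
      exact Real.exp_le_exp.mpr h3
    have h5 : Real.exp ((κ - κ ^ 2 / 2) / 2) ≤ Real.sqrt (1 + 2 * (κ / 2)) := by
      apply Real.le_sqrt_of_sq_le
      rw [← Real.exp_nat_mul]
      have : ((2 : ℕ) : ℝ) * ((κ - κ ^ 2 / 2) / 2) = κ - κ ^ 2 / 2 := by push_cast; ring
      rw [this]
      calc _ ≤ 1 + κ := h4
        _ = _ := by ring
    calc (Real.sqrt (1 + 2 * (κ / 2)))⁻¹ ≤ (Real.exp ((κ - κ ^ 2 / 2) / 2))⁻¹ := by
          gcongr
      _ = _ := by
          rw [← Real.exp_neg]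
          congr 1
          ring
  calc Real.exp (κ / 2 * ((1 - κ) * N)) * (Real.sqrt (1 + 2 * (κ / 2)))⁻¹ ^ Fintype.card ι
      ≤ Real.exp (κ / 2 * ((1 - κ) * N)) * Real.exp (-(κ / 2) + κ ^ 2 / 4) ^ Fintype.card ι := by
        gcongr
    _ = _ := by
        rw [← Real.exp_nat_mul, ← Real.exp_add, ← hN]
        congr 1
        ring

/-- Affine change of variables. -/
theorem volume_preimage_affine [DecidableEq ι] (L : Matrix ι ι ℝ) (hL : L.det ≠ 0) (f : ι → ℝ)
    (S : Set (ι → ℝ)) :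
    volume {ξ : ι → ℝ | f + L *ᵥ ξ ∈ S} = ENNReal.ofReal |L.det|⁻¹ * volume S := by
  have h1 : {ξ : ι → ℝ | f + L *ᵥ ξ ∈ S} = (Matrix.toLin' L) ⁻¹' ((fun x => f + x) ⁻¹' S) := by
    ext ξ
    simp
  rw [h1, Measure.addHaar_preimage_linearMap _ (by rwa [LinearMap.det_toLin']),
    LinearMap.det_toLin', measure_preimage_add, abs_inv]

/-- Volume of a product cell cut by a ball, through a Gaussian weight. -/
theorem volume_cell {C : Type*} (Q : ℝ → C) (hQ : ∀ a, MeasurableSet {x | Q x = a})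
    (β T : ℝ) (w : ℝ≥0∞) (hβ : 0 < β)
    (hw : ∀ a, ∫⁻ x in {x | Q x = a}, ENNReal.ofReal (Real.exp (-β * x ^ 2)) ≤ w) (c : ι → C) :
    volume {y : ι → ℝ | (∀ i, Q (y i) = c i) ∧ ∑ i, y i ^ 2 ≤ T} ≤
      ENNReal.ofReal (Real.exp (β * T)) * w ^ Fintype.card ι := by
  have hint : Integrable (fun x : ℝ => Real.exp (-β * x ^ 2)) := integrable_exp_neg_mul_sq hβ
  have hpi := pi_withDensity' (fun _ : ι => (volume : Measure ℝ))
    (fun _ x => Real.exp (-β * x ^ 2)) (fun _ x => (Real.exp_pos _).le) (fun _ => hint)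
  have hm1 : MeasurableSet {y : ι → ℝ | ∀ i, Q (y i) = c i} := by
    have : {y : ι → ℝ | ∀ i, Q (y i) = c i} = univ.pi fun i => {x | Q x = c i} := by
      ext y; simp
    rw [this]
    exact MeasurableSet.univ_pi fun i => hQ _
  have hm2 : MeasurableSet {y : ι → ℝ | ∑ i, y i ^ 2 ≤ T} :=
    measurableSet_le (by fun_prop) measurable_const
  have hset : {y : ι → ℝ | (∀ i, Q (y i) = c i) ∧ ∑ i, y i ^ 2 ≤ T}
      = {y : ι → ℝ | ∀ i, Q (y i) = c i} ∩ {y : ι → ℝ | ∑ i, y i ^ 2 ≤ T} := rfl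
  rw [hset]
  have hw0 : (∏ i, (∫⁻ x in {x | Q x = c i}, ENNReal.ofReal (Real.exp (-β * x ^ 2)))) ≤
      w ^ Fintype.card ι := by
    calc _ ≤ ∏ _i : ι, w := Finset.prod_le_prod' fun i _ => hw _
      _ = _ := by rw [Finset.prod_const, Finset.card_univ]
  calc volume ({y : ι → ℝ | ∀ i, Q (y i) = c i} ∩ {y : ι → ℝ | ∑ i, y i ^ 2 ≤ T})
      = ∫⁻ _ in ({y : ι → ℝ | ∀ i, Q (y i) = c i} ∩ {y : ι → ℝ | ∑ i, y i ^ 2 ≤ T}), 1 := by
        rw [setLIntegral_one]
    _ ≤ ∫⁻ y in ({y : ι → ℝ | ∀ i, Q (y i) = c i} ∩ {y : ι → ℝ | ∑ i, y i ^ 2 ≤ T}),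
          ENNReal.ofReal (Real.exp (β * T)) *
            ENNReal.ofReal (∏ i, Real.exp (-β * y i ^ 2)) := by
        refine setLIntegral_mono' (hm1.inter hm2) ?_
        rintro y ⟨_, hy⟩
        rw [← ENNReal.ofReal_mul (Real.exp_pos _).le, ← Real.exp_sum, ← Real.exp_add,
          ← Finset.mul_sum]
        rw [ENNReal.one_le_ofReal]
        apply Real.one_le_exp
        have : ∑ i, y i ^ 2 ≤ T := hy
        nlinarith
    _ ≤ ∫⁻ y in {y : ι → ℝ | ∀ i, Q (y i) = c i},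
          ENNReal.ofReal (Real.exp (β * T)) *
            ENNReal.ofReal (∏ i, Real.exp (-β * y i ^ 2)) :=
        lintegral_mono_set inter_subset_left
    _ = ENNReal.ofReal (Real.exp (β * T)) * ∫⁻ y in {y : ι → ℝ | ∀ i, Q (y i) = c i},
            ENNReal.ofReal (∏ i, Real.exp (-β * y i ^ 2)) := by
        rw [lintegral_const_mul]
        fun_prop
    _ = ENNReal.ofReal (Real.exp (β * T)) *
          (∏ i, (∫⁻ x in {x | Q x = c i}, ENNReal.ofReal (Real.exp (-β * x ^ 2)))) := by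
        congr 1
        have h3 : {y : ι → ℝ | ∀ i, Q (y i) = c i} = univ.pi fun i => {x | Q x = c i} := by
          ext y; simp
        have h4 : (Measure.pi fun _ : ι => (volume : Measure ℝ).withDensity
            fun x => ENNReal.ofReal (Real.exp (-β * x ^ 2))) {y : ι → ℝ | ∀ i, Q (y i) = c i}
            = (∏ i, (∫⁻ x in {x | Q x = c i}, ENNReal.ofReal (Real.exp (-β * x ^ 2)))) := by
          have hsf : IsFiniteMeasure ((volume : Measure ℝ).withDensity
              fun x => ENNReal.ofReal (Real.exp (-β * x ^ 2))) :=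
            isFiniteMeasure_withDensity_ofReal hint.2
          rw [h3, Measure.pi_pi]
          refine Finset.prod_congr rfl fun i _ => ?_
          rw [withDensity_apply _ (hQ _)]
        rw [← h4, hpi, withDensity_apply _ hm1]
        rfl
    _ ≤ _ := by gcongr

/-- **The counting bound**: if `Q ∘ (f + L ξ)` falls in the set `𝒞` of colourings, the number of
elements of `𝒞` is large. -/
theorem colour_count [DecidableEq ι] {C : Type*} (Q : ℝ → C)
    (hQ : ∀ a, MeasurableSet {x | Q x = a})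
    (β T κ : ℝ) (w : ℝ≥0∞) (hβ : 0 < β) (hκ : 0 ≤ κ)
    (hw : ∀ a, ∫⁻ x in {x | Q x = a}, ENNReal.ofReal (Real.exp (-β * x ^ 2)) ≤ w)
    (L : Matrix ι ι ℝ) (hL : L.det ≠ 0) (f : ι → ℝ) (𝒞 : Finset (ι → C)) :
    stdG ι {ξ | (fun i => Q ((f + L *ᵥ ξ) i)) ∈ 𝒞 ∧ ∑ i, ((f + L *ᵥ ξ) i) ^ 2 ≤ T} ≤
      ENNReal.ofReal (Real.exp (-(κ ^ 2 / 4) * Fintype.card ι)) +
      ENNReal.ofReal ((Real.sqrt (2 * Real.pi))⁻¹ ^ Fintype.card ι *
        Real.exp (-((1 - κ) * Fintype.card ι) / 2)) *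
      (ENNReal.ofReal |L.det|⁻¹ *
        (𝒞.card * (ENNReal.ofReal (Real.exp (β * T)) * w ^ Fintype.card ι))) := by
  classical
  set S : Set (ι → ℝ) := ⋃ c ∈ 𝒞, {y : ι → ℝ | (∀ i, Q (y i) = c i) ∧ ∑ i, y i ^ 2 ≤ T} with hS
  have hSm : MeasurableSet S := by
    refine Finset.measurableSet_biUnion _ fun c _ => ?_
    have : {y : ι → ℝ | (∀ i, Q (y i) = c i) ∧ ∑ i, y i ^ 2 ≤ T}
        = (univ.pi fun i => {x | Q x = c i}) ∩ {y : ι → ℝ | ∑ i, y i ^ 2 ≤ T} := by
      ext y; simp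
    rw [this]
    exact (MeasurableSet.univ_pi fun i => hQ _).inter
      (measurableSet_le (by fun_prop) measurable_const)
  have hsub : {ξ : ι → ℝ | (fun i => Q ((f + L *ᵥ ξ) i)) ∈ 𝒞 ∧ ∑ i, ((f + L *ᵥ ξ) i) ^ 2 ≤ T}
      ⊆ {ξ | f + L *ᵥ ξ ∈ S} := by
    rintro ξ ⟨h1, h2⟩
    simp only [hS, mem_iUnion, exists_prop, Set.mem_ofPred_eq]
    exact ⟨_, h1, fun i => rfl, h2⟩
  have hpre : MeasurableSet {ξ : ι → ℝ | f + L *ᵥ ξ ∈ S} := by
    refine measurableSet_preimage (f := fun ξ : ι → ℝ => f + L *ᵥ ξ) ?_ hSm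
    have : Continuous (fun ξ : ι → ℝ => f + L *ᵥ ξ) := by fun_prop
    exact this.measurable
  calc stdG ι {ξ | (fun i => Q ((f + L *ᵥ ξ) i)) ∈ 𝒞 ∧ ∑ i, ((f + L *ᵥ ξ) i) ^ 2 ≤ T}
      ≤ stdG ι {ξ | f + L *ᵥ ξ ∈ S} := measure_mono hsub
    _ ≤ stdG ι ({y | ∑ i, y i ^ 2 < (1 - κ) * Fintype.card ι} ∪
          ({ξ | f + L *ᵥ ξ ∈ S} ∩ {y | (1 - κ) * Fintype.card ι ≤ ∑ i, y i ^ 2})) := by
        refine measure_mono ?_
        intro ξ hξ
        rcases lt_or_ge (∑ i, ξ i ^ 2) ((1 - κ) * Fintype.card ι) with h | h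
        · exact Or.inl h
        · exact Or.inr ⟨hξ, h⟩
    _ ≤ stdG ι {y | ∑ i, y i ^ 2 < (1 - κ) * Fintype.card ι} +
          stdG ι ({ξ | f + L *ᵥ ξ ∈ S} ∩ {y | (1 - κ) * Fintype.card ι ≤ ∑ i, y i ^ 2}) :=
        measure_union_le _ _
    _ ≤ _ := by
        gcongr
        · exact stdG_ball κ hκ
        · refine (stdG_le_vol _ hpre _).trans ?_
          gcongr
          rw [volume_preimage_affine L hL f S]
          gcongr
          calc volume S ≤ ∑ c ∈ 𝒞, volume {y : ι → ℝ | (∀ i, Q (y i) = c i) ∧ ∑ i, y i ^ 2 ≤ T} :=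
                measure_biUnion_finset_le _ _
            _ ≤ ∑ _c ∈ 𝒞, (ENNReal.ofReal (Real.exp (β * T)) * w ^ Fintype.card ι) :=
                Finset.sum_le_sum fun c _ => volume_cell Q hQ β T w hβ hw c
            _ = _ := by rw [Finset.sum_const, nsmul_eq_mul]

end Vale.Agent.P156.H814
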