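import Vale.Agent.P156.H814.D2
import Vale.Agent.P156.H924.LLN
import Vale.Agent.P156.H877.E13

/-!
# P156, D4: from the counting inequality to entropies
-/

open MeasureTheory ProbabilityTheory Matrix Set Filter Topology
open scoped ENNReal NNReal Kronecker

noncomputable section

namespace Vale.Agent.P156.H814

open Vale.Agent.P156 Vale.Agent.P156.H801 Vale.Agent.P156.H690 Vale.Agent.P156.H877

/-- `Sig ⊗ 1`. -/
def fullS {N : Type*} (k : ℕ) (Sig : Matrix N N ℝ) : Matrix (N × Fin k) (N × Fin k) ℝ :=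
  Matrix.of fun p q => if p.2 = q.2 then Sig p.1 q.1 else 0

theorem fullS_eq {N : Type*} (k : ℕ) (Sig : Matrix N N ℝ) :
    fullS k Sig = Sig ⊗ₖ (1 : Matrix (Fin k) (Fin k) ℝ) := by
  ext p q
  obtain ⟨x, a⟩ := p
  obtain ⟨y, b⟩ := q
  simp [fullS, Matrix.kroneckerMap_apply, Matrix.one_apply]

theorem fullS_posDef {N : Type*} [Fintype N] [DecidableEq N] (k : ℕ) {Sig : Matrix N N ℝ}
    (h : Sig.PosDef) : (fullS k Sig).PosDef := by
  rw [fullS_eq]
  exact h.kronecker Matrix.PosDef.one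

theorem fullS_submatrix {N N' : Type*} (k : ℕ) (Sig : Matrix N N ℝ) (r : N' → N) :
    (fullS k Sig).submatrix (fun p : N' × Fin k => (r p.1, p.2)) (fun p => (r p.1, p.2)) =
      fullS k (Sig.submatrix r r) := rfl

/-- The law of the colours of a vector. -/
def qLaw {ι : Type*} (m : ℕ) (μ : Measure (ι → ℝ)) (s : ι → Fin (2 * m ^ 2 + 1)) : ℝ :=
  μ.real {x | ∀ i, qt m (x i) = s i}

theorem measurableSet_cell {ι : Type*} [Fintype ι] (m : ℕ) (s : ι → Fin (2 * m ^ 2 + 1)) :
    MeasurableSet {x : ι → ℝ | ∀ i, qt m (x i) = s i} := by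
  have : {x : ι → ℝ | ∀ i, qt m (x i) = s i} = ⋂ i, (fun x : ι → ℝ => x i) ⁻¹' {y | qt m y = s i} := by
    ext x
    simp
  rw [this]
  exact MeasurableSet.iInter fun i => (measurable_pi_apply i) (measurableSet_qt m (s i))

/-- Marginals of the law of the colours. -/
theorem margL_qLaw {ι ι' : Type*} [Fintype ι] [DecidableEq ι] [Fintype ι'] (m : ℕ)
    (μ : Measure (ι → ℝ)) [IsFiniteMeasure μ] (r : ι' → ι) (s' : ι' → Fin (2 * m ^ 2 + 1)) :
    margL r (qLaw m μ) s' = qLaw m (μ.map fun x i => x (r i)) s' := by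
  classical
  have hmeas : Measurable (fun (x : ι → ℝ) (i : ι') => x (r i)) :=
    measurable_pi_lambda _ fun i => measurable_pi_apply _
  unfold qLaw
  rw [measureReal_def, Measure.map_apply hmeas (measurableSet_cell m s'), ← measureReal_def]
  have hset : (fun (x : ι → ℝ) (i : ι') => x (r i)) ⁻¹' {x | ∀ i, qt m (x i) = s' i} =
      ⋃ s ∈ (Finset.univ : Finset (ι → Fin (2 * m ^ 2 + 1))).filter (fun s => s ∘ r = s'),
        {x : ι → ℝ | ∀ i, qt m (x i) = s i} := by
    ext x
    simp only [Set.mem_preimage, Set.mem_ofPred_eq, Set.mem_iUnion, Finset.mem_filter,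
      Finset.mem_univ, true_and, exists_prop]
    constructor
    · intro h
      exact ⟨fun i => qt m (x i), funext h, fun i => rfl⟩
    · rintro ⟨s, hs, h⟩ i
      rw [h, ← hs]
      rfl
  rw [hset, measureReal_biUnion_finset]
  · unfold margL
    rw [Finset.sum_filter]
    exact Finset.sum_congr rfl fun s _ => by congr
  · intro s _ s2 _ hne
    refine Set.disjoint_left.mpr fun x hx hx2 => hne ?_
    funext i
    have h1 : qt m (x i) = s i := hx i
    have h2 : qt m (x i) = s2 i := hx2 i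
    rw [← h1, h2]
  · intro s _
    exact measurableSet_cell m s

/-- Interface: limit of the quantised entropies (block of helper877). -/
def SpecE2 : Prop := ∀ (ι : Type) [Fintype ι] [DecidableEq ι] (X : Measure (ι → ℝ))
  [IsProbabilityMeasure X] (S : Matrix ι ι ℝ), Integrable (fun x => ‖x‖ ^ 2) X → S.PosDef →
  Tendsto (fun m : ℕ => ent (qLaw m (sm X S)) - Fintype.card ι * Real.log m) atTop (𝓝 (hh X S))

/-- The test vector of the eigenvalue equation on the star. -/
def wv {d : ℕ} (lam : ℝ) (x : Option (Fin d)) : ℝ := x.elim (-lam) (fun _ => 1)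

/-- Interface: removal of the last leaf (block of helper877). -/
def SpecE4 : Prop := ∀ (q k : ℕ) (lam : ℝ) (X : Measure (Option (Fin (q + 1)) × Fin k → ℝ))
  [IsProbabilityMeasure X] (Sig : Matrix (Option (Fin (q + 1))) (Option (Fin (q + 1))) ℝ),
  Integrable (fun x => ‖x‖ ^ 2) X →
  (∀ᵐ x ∂X, ∀ a, ∑ i, x (some i, a) = lam * x (none, a)) → Sig.PosDef →
  hh X (fullS k Sig) ≤
    hh (X.map fun x (p : Option (Fin q) × Fin k) => x (p.1.map Fin.castSucc, p.2))
      (fullS k (Sig.submatrix (Option.map Fin.castSucc) (Option.map Fin.castSucc))) +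
    (k : ℝ) / 2 * (Real.log (2 * Real.pi) + 1 +
      Real.log (∑ x, ∑ y, wv lam x * wv lam y * Sig x y))

theorem prob_eq_fracF {n d k m : ℕ} (G : SimpleGraph (Fin n)) (f : Fin n → Fin k → ℝ)
    (B : Matrix (Fin n) (Fin n) ℝ) (ξ : Fin n × Fin k → ℝ)
    (s : Option (Fin d) × Fin k → Fin (2 * m ^ 2 + 1)) :
    prob (starsF d G) (fun p =>
      ∀ i, qt m (onStar (fun v a => f v a + ∑ w, B v w * ξ (w, a)) p i) = s i) =
    fracF G (colOf m (flatF f + kron k B *ᵥ ξ)) s := by
  classical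
  unfold prob avg fracF
  rw [Finset.card_filter]
  push_cast
  congr 1
  refine Finset.sum_congr rfl fun p _ => ?_
  have h : (∀ i, qt m (onStar (fun v a => f v a + ∑ w, B v w * ξ (w, a)) p i) = s i) ↔
      ∀ i : Option (Fin d) × Fin k,
        colOf m (flatF f + kron k B *ᵥ ξ) (nd p i.1) i.2 = s i := by
    refine forall_congr' fun i => ?_
    unfold colOf onStar
    rw [Pi.add_apply, kron_mulVec]
    rfl
  by_cases hp : ∀ i, qt m (onStar (fun v a => f v a + ∑ w, B v w * ξ (w, a)) p i) = s i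
  · rw [if_pos hp, if_pos (h.mp hp)]
  · rw [if_neg hp, if_neg (fun h' => hp (h.mpr h'))]

/-- The normalised covariance of the noise on the star. -/
def SigL (d : ℕ) (t : ℝ) (z m : ℂ) : Matrix (Option (Fin d)) (Option (Fin d)) ℝ :=
  Matrix.of fun x y => t * ((Kz d z m x y).im / (Kz d z m none none).im)

/-- The amplitude of the noise. -/
def tauL (d : ℕ) (t : ℝ) (l : ℕ) (z m : ℂ) : ℝ :=
  Real.sqrt (t * (1 / ((l : ℝ) + 1)) / (Kz d z m none none).im)

theorem tauL_pos {d : ℕ} {t : ℝ} (ht : 0 < t) (l : ℕ) {z m : ℂ}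
    (h : 0 < (Kz d z m none none).im) : 0 < tauL d t l z m := by
  unfold tauL
  positivity

theorem tauL_sq {d : ℕ} {t : ℝ} (ht : 0 < t) (l : ℕ) {z m : ℂ}
    (h : 0 < (Kz d z m none none).im) :
    tauL d t l z m ^ 2 = t * (1 / ((l : ℝ) + 1)) / (Kz d z m none none).im := by
  unfold tauL
  exact Real.sq_sqrt (by positivity)

/-- **D4, first half**: the entropy inequality at fixed `δ = 1/(l+1)`. -/
theorem d4_fixed (hE2 : SpecE2) {q k : ℕ} (hk : 0 < k) {lam : ℝ} {n : ℕ → ℕ}
    {G : ∀ j, SimpleGraph (Fin (n j))}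
    (hT : TypSeq (q + 1) k lam n G) (f : ∀ j, Fin (n j) → Fin k → ℝ)
    (hf : ∀ j, ∑ v, ∑ a, f j v a ^ 2 ≤ k * n j)
    (X : Measure (Option (Fin (q + 1)) × Fin k → ℝ)) [IsProbabilityMeasure X]
    (hX2 : Integrable (fun x => ‖x‖ ^ 2) X)
    (hX : ∀ ψ : BoundedContinuousFunction (Option (Fin (q + 1)) × Fin k → ℝ) ℝ,
      Tendsto (fun j => avg (starsF (q + 1) (G j)) (fun p => ψ (onStar (f j) p))) atTop
        (𝓝 (∫ x, ψ x ∂X)))
    {t : ℝ} (ht : 0 < t) (l : ℕ) (ml : ℂ) (hml : IsTreeStieltjes (q + 1) (zl lam l) ml)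
    (hpos : 0 < (Kz (q + 1) (zl lam l) ml none none).im)
    (hpd : (SigL (q + 1) t (zl lam l) ml).PosDef) :
    (k : ℝ) / 2 * Real.log (2 * Real.pi) + k / 2 +
      k * (Real.log (tauL (q + 1) t l (zl lam l) ml) - Um (q + 1) ml) ≤
      hh X (fullS k (SigL (q + 1) t (zl lam l) ml)) - ((q + 1 : ℕ) : ℝ) / 2 *
        hh (X.map fun x (p : Option (Fin 1) × Fin k) => x (p.1.map (fun _ => 0), p.2))
          (fullS k ((SigL (q + 1) t (zl lam l) ml).submatrix (Option.map fun _ : Fin 1 => 0)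
            (Option.map fun _ : Fin 1 => 0))) := by
  set τ := tauL (q + 1) t l (zl lam l) ml with hτdef
  set Sig := SigL (q + 1) t (zl lam l) ml with hSig
  have hτ : 0 < τ := tauL_pos ht l hpos
  have hδ : (0 : ℝ) < 1 / ((l : ℝ) + 1) := by positivity
  have hτ2 : ∀ x y, τ ^ 2 / (1 / ((l : ℝ) + 1)) * (Kz (q + 1) (zl lam l) ml x y).im = Sig x y := by
    intro x y
    rw [hτdef, tauL_sq ht l hpos, hSig]
    unfold SigL
    rw [Matrix.of_apply]
    field_simp
  have hn : Tendsto (fun j => (n j : ℝ)) atTop atTop := tendsto_natCast_atTop_atTop.comp hT.lim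
  -- covariance on the stars
  have hcov : ∀ x y, Tendsto (fun j => avg (starsF (q + 1) (G j)) (fun p =>
      |(noiseG (G j) τ lam l * (noiseG (G j) τ lam l)ᵀ) (nd p x) (nd p y) - Sig x y|)) atTop
      (𝓝 0) := by
    intro x y
    have h1 := (hT.cov l ml hml x y).const_mul (τ ^ 2 / (1 / ((l : ℝ) + 1)))
    rw [mul_zero] at h1
    refine h1.congr fun j => ?_
    unfold avg
    rw [← mul_div_assoc, Finset.mul_sum]
    congr 1
    refine Finset.sum_congr rfl fun p _ => ?_
    have h2 : (noiseG (G j) τ lam l * (noiseG (G j) τ lam l)ᵀ) (nd p x) (nd p y) =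
        τ ^ 2 / (1 / ((l : ℝ) + 1)) * (resD (adj (G j)) ∅ (zl lam l) (nd p x) (nd p y)).im := by
      unfold noiseG
      rw [noiseM_cov_im _ τ lam hδ, resD_empty]
      rfl
    change _ = |(noiseG (G j) τ lam l * (noiseG (G j) τ lam l)ᵀ) (nd p x) (nd p y) - Sig x y|
    rw [h2, ← hτ2, ← mul_sub, abs_mul,
      abs_of_nonneg (by positivity : (0 : ℝ) ≤ τ ^ 2 / (1 / ((l : ℝ) + 1)))]
  have hHS : Tendsto (fun j => (∑ u, ∑ w,
      ((noiseG (G j) τ lam l * (noiseG (G j) τ lam l)ᵀ) u w) ^ 2) / (n j : ℝ) ^ 2) atTop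
      (𝓝 0) := by
    have h1 : Tendsto (fun j => (τ ^ 2 / (1 / ((l : ℝ) + 1)) ^ 2) ^ 2 / (n j : ℝ)) atTop (𝓝 0) :=
      hn.const_div_atTop _
    refine squeeze_zero (fun j => by positivity) (fun j => ?_) h1
    have hnj : (0 : ℝ) < n j := by exact_mod_cast hT.pos j
    have h2 : ∑ u, ∑ w, ((noiseG (G j) τ lam l * (noiseG (G j) τ lam l)ᵀ) u w) ^ 2 ≤
        ∑ _u : Fin (n j), (τ ^ 2 / (1 / ((l : ℝ) + 1)) ^ 2) ^ 2 :=
      Finset.sum_le_sum fun u _ => cov_row_sq (adj_isHermitian (G j)) τ lam hδ u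
    rw [Finset.sum_const, Finset.card_univ, Fintype.card_fin, nsmul_eq_mul] at h2
    rw [div_le_div_iff₀ (by positivity) hnj]
    nlinarith [h2]
  have hfull := fullS_posDef k hpd
  -- LLN
  have hLLN : ∀ (m : ℕ) (s : Option (Fin (q + 1)) × Fin k → Fin (2 * m ^ 2 + 1)) (ε : ℝ), 0 < ε →
      Tendsto (fun j => stdG (Fin (n j) × Fin k) {ξ | ε ≤ |fracF (G j)
        (colOf m (flatF (f j) + kron k (noiseG (G j) τ lam l) *ᵥ ξ)) s -
          qLaw m (sm X (fullS k Sig)) s|}) atTop (𝓝 0) := by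
    intro m s ε hε
    have h1 := H924.lln_qt n hT.pos G hT.reg f (fun j => noiseG (G j) τ lam l) Sig X hX hcov hHS
      (fullS k Sig) (fun p q => rfl) hfull m s ε hε
    refine h1.congr fun j => ?_
    simp only [prob_eq_fracF]
    rfl
  -- the edge law
  set e : Option (Fin 1) → Option (Fin (q + 1)) := Option.map fun _ => 0 with he
  have hinj : Function.Injective (re q k) := by
    rintro ⟨x, a⟩ ⟨y, b⟩ h
    unfold re at h
    rw [Prod.mk.injEq] at h
    obtain ⟨h1, h2⟩ := h
    refine Prod.ext ?_ h2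
    cases x <;> cases y
    · rfl
    · simp at h1
    · simp at h1
    · exact congrArg some (Subsingleton.elim _ _)
  have hprob : IsProbabilityMeasure (sm X (fullS k Sig)) := isProb_sm hfull
  have hmarg : ∀ m : ℕ, margL (re q k) (qLaw m (sm X (fullS k Sig))) =
      qLaw m (sm (X.map fun x (p : Option (Fin 1) × Fin k) => x (p.1.map (fun _ => 0), p.2))
        (fullS k (Sig.submatrix e e))) := by
    intro m
    funext s'
    rw [margL_qLaw]
    congr 1
    have h1 := sm_map_comp (X := X) (S := fullS k Sig) (f := re q k) hinj hfull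
    exact h1
  have hmeas : Measurable (fun (x : Option (Fin (q + 1)) × Fin k → ℝ)
      (p : Option (Fin 1) × Fin k) => x (p.1.map (fun _ => 0), p.2)) :=
    measurable_pi_lambda _ fun i => measurable_pi_apply _
  have hXe : IsProbabilityMeasure
      (X.map fun x (p : Option (Fin 1) × Fin k) => x (p.1.map (fun _ => 0), p.2)) :=
    Measure.isProbabilityMeasure_map hmeas.aemeasurable
  have hXe2 : Integrable (fun x => ‖x‖ ^ 2)
      (X.map fun x (p : Option (Fin 1) × Fin k) => x (p.1.map (fun _ => 0), p.2)) := by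
    rw [integrable_map_measure (by fun_prop) hmeas.aemeasurable]
    refine hX2.mono' ?_ (ae_of_all _ fun x => ?_)
    · exact ((measurable_norm.comp hmeas).pow_const 2).aestronglyMeasurable
    · simp only [Function.comp_apply]
      rw [Real.norm_eq_abs, abs_of_nonneg (by positivity)]
      refine pow_le_pow_left₀ (norm_nonneg _) ?_ 2
      refine (pi_norm_le_iff_of_nonneg (norm_nonneg _)).mpr fun p => ?_
      exact norm_le_pi_norm x _
  have hede : (Sig.submatrix e e).PosDef := by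
    refine hpd.submatrix ?_
    intro x y h
    cases x <;> cases y
    · rfl
    · simp [he] at h
    · simp [he] at h
    · exact congrArg some (Subsingleton.elim _ _)
  have hlim1 := hE2 _ X (fullS k Sig) hX2 hfull
  have hlim2 := hE2 _ (X.map fun x (p : Option (Fin 1) × Fin k) => x (p.1.map (fun _ => 0), p.2))
    (fullS k (Sig.submatrix e e)) hXe2 (fullS_posDef k hede)
  have hlim := hlim1.sub (hlim2.const_mul (((q + 1 : ℕ) : ℝ) / 2))
  have hcards1 : (Fintype.card (Option (Fin (q + 1)) × Fin k) : ℝ) = (q + 2) * k := by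
    rw [Fintype.card_prod, Fintype.card_option, Fintype.card_fin, Fintype.card_fin]
    push_cast
    ring
  have hcards2 : (Fintype.card (Option (Fin 1) × Fin k) : ℝ) = 2 * k := by
    rw [Fintype.card_prod, Fintype.card_option, Fintype.card_fin, Fintype.card_fin]
    push_cast
    ring
  have hPhi : ∀ m : ℕ, PhiL q k (qLaw m (sm X (fullS k Sig))) - k * Real.log m =
      ent (qLaw m (sm X (fullS k Sig))) -
        (Fintype.card (Option (Fin (q + 1)) × Fin k) : ℝ) * Real.log m -
      ((q + 1 : ℕ) : ℝ) / 2 *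
      (ent (qLaw m (sm (X.map fun x (p : Option (Fin 1) × Fin k) =>
          x (p.1.map (fun _ => 0), p.2)) (fullS k (Sig.submatrix e e)))) -
        (Fintype.card (Option (Fin 1) × Fin k) : ℝ) * Real.log m) := by
    intro m
    unfold PhiL
    rw [hmarg m, hcards1, hcards2]
    push_cast
    ring
  -- conclusion
  have key : ∀ β : ℝ, 0 < β → (k : ℝ) / 2 * Real.log (2 * Real.pi) + k / 2 +
      k * (Real.log τ - Um (q + 1) ml) ≤
      hh X (fullS k Sig) - ((q + 1 : ℕ) : ℝ) / 2 *
        hh (X.map fun x (p : Option (Fin 1) × Fin k) => x (p.1.map (fun _ => 0), p.2))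
          (fullS k (Sig.submatrix e e)) + β * MM k τ l := by
    intro β hβ
    have h1 := d2_ineq hk hT f hf hτ l ml hml (fun m => qLaw m (sm X (fullS k Sig))) hLLN hβ
    refine ge_of_tendsto (hlim.add_const (β * MM k τ l)) ?_
    filter_upwards [h1] with m hm
    have h2 := hPhi m
    linarith
  have hM : 0 ≤ MM k τ l := by
    unfold MM
    positivity
  refine le_of_forall_pos_le_add fun ε hε => ?_
  have h1 := key (ε / (MM k τ l + 1)) (by positivity)
  have h2 : ε / (MM k τ l + 1) * MM k τ l ≤ ε := by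
    rw [div_mul_eq_mul_div, div_le_iff₀ (by positivity)]
    nlinarith
  linarith

end Vale.Agent.P156.H814
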