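import Vale.Agent.P156.H801.Res
import Vale.Agent.P156.R2.Defs

/-!
# P156, D2: the noise matrix

`noiseM hA τ z = τ ((A - E)² + δ²)^{-1/2}`, `z = E + i δ`.
-/

open Matrix Finset

noncomputable section

namespace Vale.Agent.P156.H814

open Vale.Agent.P156 Vale.Agent.P156.H801

variable {V : Type*} [Fintype V] [DecidableEq V] {A : Matrix V V ℝ}

/-- The matrix whose rows are the eigenvectors. -/
def evM (hA : A.IsHermitian) : Matrix V V ℝ := Matrix.of fun i a => ev hA i a

theorem evM_mul_transpose (hA : A.IsHermitian) : evM hA * (evM hA)ᵀ = 1 := by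
  ext i j
  rw [Matrix.mul_apply, Matrix.one_apply]
  exact ev_orth hA i j

theorem transpose_mul_evM (hA : A.IsHermitian) : (evM hA)ᵀ * evM hA = 1 := by
  ext a b
  rw [Matrix.mul_apply, Matrix.one_apply]
  exact ev_complete hA a b

/-- The noise matrix. -/
def noiseM (hA : A.IsHermitian) (τ : ℝ) (z : ℂ) : Matrix V V ℝ :=
  (evM hA)ᵀ * diagonal (fun i => τ / ‖(hA.eigenvalues i : ℂ) - z‖) * evM hA

theorem det_noiseM (hA : A.IsHermitian) (τ : ℝ) (z : ℂ) :
    (noiseM hA τ z).det = ∏ i, τ / ‖(hA.eigenvalues i : ℂ) - z‖ := by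
  unfold noiseM
  rw [Matrix.det_mul, Matrix.det_mul, Matrix.det_diagonal, mul_comm, ← mul_assoc, ← Matrix.det_mul,
    evM_mul_transpose, Matrix.det_one, one_mul]

theorem noiseM_cov (hA : A.IsHermitian) (τ : ℝ) (z : ℂ) (a b : V) :
    (noiseM hA τ z * (noiseM hA τ z)ᵀ) a b =
      ∑ i, (τ / ‖(hA.eigenvalues i : ℂ) - z‖) ^ 2 * (ev hA i a * ev hA i b) := by
  have h : noiseM hA τ z * (noiseM hA τ z)ᵀ =
      (evM hA)ᵀ * diagonal (fun i => (τ / ‖(hA.eigenvalues i : ℂ) - z‖) ^ 2) * evM hA := by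
    unfold noiseM
    simp only [Matrix.transpose_mul, Matrix.transpose_transpose, Matrix.diagonal_transpose]
    calc (evM hA)ᵀ * diagonal (fun i => τ / ‖(hA.eigenvalues i : ℂ) - z‖) * evM hA *
          ((evM hA)ᵀ * (diagonal (fun i => τ / ‖(hA.eigenvalues i : ℂ) - z‖) * evM hA))
        = (evM hA)ᵀ * diagonal (fun i => τ / ‖(hA.eigenvalues i : ℂ) - z‖) *
          (evM hA * (evM hA)ᵀ) * diagonal (fun i => τ / ‖(hA.eigenvalues i : ℂ) - z‖) *
          evM hA := by simp only [Matrix.mul_assoc]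
      _ = _ := by
        rw [evM_mul_transpose, Matrix.mul_one, Matrix.mul_assoc (evM hA)ᵀ,
          Matrix.diagonal_mul_diagonal]
        simp only [sq]
  rw [h, Matrix.mul_apply]
  refine Finset.sum_congr rfl fun i _ => ?_
  rw [Matrix.mul_diagonal]
  simp only [evM, Matrix.transpose_apply, Matrix.of_apply]
  ring

theorem norm_sub_sq (x E δ : ℝ) :
    ‖(x : ℂ) - ((E : ℂ) + δ * Complex.I)‖ ^ 2 = (x - E) ^ 2 + δ ^ 2 := by
  rw [← Complex.normSq_eq_norm_sq, Complex.normSq_apply]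
  simp
  ring

theorem im_inv_sub' (x E δ : ℝ) (w : ℝ) :
    ((w : ℂ) / ((x : ℂ) - ((E : ℂ) + δ * Complex.I))).im = w * (δ / ((x - E) ^ 2 + δ ^ 2)) := by
  rw [Complex.div_im]
  have h : Complex.normSq ((x : ℂ) - ((E : ℂ) + δ * Complex.I)) = (x - E) ^ 2 + δ ^ 2 := by
    rw [Complex.normSq_eq_norm_sq, norm_sub_sq]
  rw [h]
  simp
  ring

/-- The covariance of the noise is `(τ²/δ) Im R(z)`. -/
theorem noiseM_cov_im (hA : A.IsHermitian) (τ E : ℝ) {δ : ℝ} (hδ : 0 < δ) (a b : V) :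
    (noiseM hA τ (E + δ * Complex.I) * (noiseM hA τ (E + δ * Complex.I))ᵀ) a b =
      τ ^ 2 / δ * (rs A (E + δ * Complex.I) a b).im := by
  have hz : ∀ i, (hA.eigenvalues i : ℂ) - (E + δ * Complex.I) ≠ 0 :=
    fun i => sub_ne_zero_of_im hA (by simp [hδ.ne']) i
  rw [noiseM_cov, rs_apply hA hz, Complex.im_sum, Finset.mul_sum]
  refine Finset.sum_congr rfl fun i _ => ?_
  rw [im_inv_sub' _ _ _ _, div_pow, norm_sub_sq]
  field_simp

theorem resD_empty (A : Matrix V V ℝ) (z : ℂ) : resD A ∅ z = rs A z := by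
  unfold resD rs
  congr 1
  ext x y
  simp [cutMat, Matrix.one_apply, sub_eq_add_neg]

omit [Fintype V] in
theorem cutMat_empty (A : Matrix V V ℝ) (z : ℂ) :
    cutMat A ∅ z = A.map Complex.ofReal - z • (1 : Matrix V V ℂ) := by
  ext x y
  simp [cutMat, Matrix.one_apply, sub_eq_add_neg]

theorem det_sub (hA : A.IsHermitian) (z : ℂ) :
    (A.map Complex.ofReal - z • (1 : Matrix V V ℂ)).det =
      ∏ i, ((hA.eigenvalues i : ℂ) - z) := by
  set U : Matrix V V ℂ := (evM hA).map Complex.ofReal with hU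
  have h1 : U * Uᵀ = 1 := by
    ext i j
    rw [Matrix.mul_apply, Matrix.one_apply]
    have := congrArg (fun x : ℝ => (x : ℂ)) (ev_orth hA i j)
    simp only [Complex.ofReal_sum, Complex.ofReal_mul] at this
    simp only [hU, Matrix.map_apply, evM, Matrix.of_apply, Matrix.transpose_apply]
    rw [this]
    split_ifs <;> simp
  have h2 : U * (A.map Complex.ofReal - z • (1 : Matrix V V ℂ)) =
      diagonal (fun i => (hA.eigenvalues i : ℂ) - z) * U := by
    have hs : ∀ a b, A a b = A b a := fun a b => by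
      have := hA.apply a b
      simpa using this.symm
    ext i b
    rw [Matrix.mul_sub, Matrix.sub_apply, Matrix.mul_smul, Matrix.mul_one, Matrix.smul_apply,
      Matrix.diagonal_mul, Matrix.mul_apply, sub_mul, smul_eq_mul]
    congr 1
    simp only [hU, Matrix.map_apply, evM, Matrix.of_apply]
    have := ev_eigen hA i b
    calc ∑ c, (ev hA i c : ℂ) * (A c b : ℂ) = ((∑ c, A b c * ev hA i c : ℝ) : ℂ) := by
          push_cast
          refine Finset.sum_congr rfl fun c _ => ?_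
          rw [hs c b]
          ring
      _ = _ := by rw [this]; push_cast; ring
  have h3 := congrArg Matrix.det h2
  rw [Matrix.det_mul, Matrix.det_mul, Matrix.det_diagonal] at h3
  have h4 : U.det ≠ 0 := by
    intro h
    have := congrArg Matrix.det h1
    rw [Matrix.det_mul, h, zero_mul, Matrix.det_one] at this
    exact zero_ne_one this
  rw [mul_comm] at h3
  exact mul_right_cancel₀ h4 h3

/-- Log determinant of the noise. -/
theorem log_det_noiseM (hA : A.IsHermitian) {τ : ℝ} (hτ : 0 < τ) {z : ℂ} (hz : z.im ≠ 0) :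
    Real.log |(noiseM hA τ z).det| =
      Fintype.card V * Real.log τ -
        Real.log ‖(A.map Complex.ofReal - z • (1 : Matrix V V ℂ)).det‖ := by
  have h0 : ∀ i, 0 < ‖(hA.eigenvalues i : ℂ) - z‖ := fun i =>
    norm_pos_iff.mpr (sub_ne_zero_of_im hA hz i)
  rw [det_noiseM, det_sub hA, norm_prod, abs_of_pos (Finset.prod_pos fun i _ => by
    have := h0 i; positivity), Real.log_prod (fun i _ => by have := h0 i; positivity),
    Real.log_prod (fun i _ => (h0 i).ne')]
  rw [Finset.sum_congr rfl (fun i _ => Real.log_div hτ.ne' (h0 i).ne'), Finset.sum_sub_distrib,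
    Finset.sum_const, Finset.card_univ, nsmul_eq_mul]

theorem det_noiseM_ne_zero (hA : A.IsHermitian) {τ : ℝ} (hτ : 0 < τ) {z : ℂ} (hz : z.im ≠ 0) :
    (noiseM hA τ z).det ≠ 0 := by
  rw [det_noiseM]
  refine Finset.prod_ne_zero_iff.mpr fun i _ => ?_
  have : 0 < ‖(hA.eigenvalues i : ℂ) - z‖ := norm_pos_iff.mpr (sub_ne_zero_of_im hA hz i)
  positivity

/-- `∑_b Γ_ab² ≤ (τ²/δ²)²`. -/
theorem cov_row_sq (hA : A.IsHermitian) (τ E : ℝ) {δ : ℝ} (hδ : 0 < δ) (a : V) :
    ∑ b, ((noiseM hA τ (E + δ * Complex.I) * (noiseM hA τ (E + δ * Complex.I))ᵀ) a b) ^ 2 ≤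
      (τ ^ 2 / δ ^ 2) ^ 2 := by
  set g : V → ℝ := fun i => (τ / ‖(hA.eigenvalues i : ℂ) - (E + δ * Complex.I)‖) ^ 2 with hg
  have hgb : ∀ i, 0 ≤ g i ∧ g i ≤ τ ^ 2 / δ ^ 2 := by
    intro i
    simp only [hg, div_pow, norm_sub_sq]
    constructor
    · positivity
    · apply div_le_div_of_nonneg_left (sq_nonneg _) (by positivity)
      nlinarith [sq_nonneg (hA.eigenvalues i - E)]
  have h1 : ∀ b, (noiseM hA τ (E + δ * Complex.I) * (noiseM hA τ (E + δ * Complex.I))ᵀ) a b =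
      ∑ i, (g i * ev hA i a) * ev hA i b := by
    intro b
    rw [noiseM_cov]
    exact Finset.sum_congr rfl fun i _ => by ring
  have h2 : ∑ b, (∑ i, (g i * ev hA i a) * ev hA i b) ^ 2 = ∑ i, (g i * ev hA i a) ^ 2 := by
    have : ∀ b, (∑ i, (g i * ev hA i a) * ev hA i b) ^ 2 =
        ∑ i, ∑ j, (g i * ev hA i a) * (g j * ev hA j a) * (ev hA i b * ev hA j b) := by
      intro b
      rw [sq, Finset.sum_mul_sum]
      refine Finset.sum_congr rfl fun i _ => Finset.sum_congr rfl fun j _ => ?_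
      ring
    simp_rw [this]
    rw [Finset.sum_comm]
    refine Finset.sum_congr rfl fun i _ => ?_
    rw [Finset.sum_comm]
    have h3 : ∀ j, ∑ b, (g i * ev hA i a) * (g j * ev hA j a) * (ev hA i b * ev hA j b) =
        if i = j then (g i * ev hA i a) * (g j * ev hA j a) else 0 := by
      intro j
      rw [← Finset.mul_sum, ev_orth]
      split_ifs <;> simp
    simp_rw [h3]
    rw [Finset.sum_ite_eq, if_pos (Finset.mem_univ _)]
    ring
  simp_rw [h1]
  rw [h2]
  calc ∑ i, (g i * ev hA i a) ^ 2 ≤ ∑ i, (τ ^ 2 / δ ^ 2) ^ 2 * (ev hA i a * ev hA i a) := by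
        refine Finset.sum_le_sum fun i _ => ?_
        rw [mul_pow, ← sq]
        exact mul_le_mul_of_nonneg_right (pow_le_pow_left₀ (hgb i).1 (hgb i).2 2) (sq_nonneg _)
    _ = _ := by
        rw [← Finset.mul_sum, ev_complete, if_pos rfl, mul_one]

/-- `Γ_aa ≤ τ²/δ²`. -/
theorem cov_diag_le (hA : A.IsHermitian) (τ E : ℝ) {δ : ℝ} (hδ : 0 < δ) (a : V) :
    (noiseM hA τ (E + δ * Complex.I) * (noiseM hA τ (E + δ * Complex.I))ᵀ) a a ≤
      τ ^ 2 / δ ^ 2 := by
  have h := cov_row_sq hA τ E hδ a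
  have h1 := Finset.single_le_sum (f := fun b =>
    ((noiseM hA τ (E + δ * Complex.I) * (noiseM hA τ (E + δ * Complex.I))ᵀ) a b) ^ 2)
    (fun b _ => sq_nonneg _) (Finset.mem_univ a)
  exact le_of_sq_le_sq (h1.trans h) (by positivity)

end Vale.Agent.P156.H814
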