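import Vale.Agent.P156.H814.Vol
import Vale.Agent.P156.H814.Typ
import Vale.Agent.P156.H814.Noise

/-!
# P156, D2: cells of the quantiser, energy bound, Kronecker noise
-/

open MeasureTheory ProbabilityTheory Matrix Set Filter Topology
open scoped ENNReal NNReal Kronecker

noncomputable section

namespace Vale.Agent.P156.H814

open Vale.Agent.P156 Vale.Agent.P156.H801

theorem measurable_qt (m : ℕ) : Measurable (qt m) := by
  unfold qt
  refine Measurable.ite (measurableSet_lt (by fun_prop) measurable_const) ?_ measurable_const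
  have h1 : Measurable (fun x : ℝ => ⌊(x + m) * m⌋₊) := Nat.measurable_floor.comp (by fun_prop)
  have h2 : Measurable (fun j : ℕ => (⟨min j (2 * m ^ 2), by omega⟩ : Fin (2 * m ^ 2 + 1))) :=
    measurable_from_top
  exact h2.comp h1

theorem measurableSet_qt (m : ℕ) (a : Fin (2 * m ^ 2 + 1)) : MeasurableSet {x | qt m x = a} :=
  measurable_qt m (measurableSet_singleton a)

/-- Bounded cells are contained in intervals of length `1/m`. -/
theorem qt_cell_subset (m : ℕ) (hm : 0 < m) (a : Fin (2 * m ^ 2 + 1)) :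
    {x | qt m x = a} ⊆ Icc ((a : ℝ) / m - m) (((a : ℝ) + 1) / m - m) ∪ {x | (m : ℝ) ≤ |x|} := by
  intro x hx
  by_cases h : |x| < m
  · left
    have hx' : qt m x = a := hx
    unfold qt at hx'
    rw [if_pos h] at hx'
    have h1 : min ⌊(x + m) * m⌋₊ (2 * m ^ 2) = (a : ℕ) := congrArg Fin.val hx'
    have hm' : (0 : ℝ) < m := by exact_mod_cast hm
    obtain ⟨h2, h3⟩ := abs_lt.mp h
    have h4 : 0 ≤ (x + m) * m := by
      apply mul_nonneg _ hm'.le
      linarith
    have h5 : (x + m) * m < ((2 * m ^ 2 : ℕ) : ℝ) := by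
      push_cast
      nlinarith
    have h6 : ⌊(x + m) * m⌋₊ < 2 * m ^ 2 := (Nat.floor_lt h4).mpr h5
    rw [min_eq_left h6.le] at h1
    have h7 := Nat.floor_le h4
    have h8 := Nat.lt_floor_add_one ((x + m) * m)
    rw [h1] at h7 h8
    constructor
    · rw [sub_le_iff_le_add, div_le_iff₀ hm']
      linarith
    · rw [le_sub_iff_add_le, le_div_iff₀ hm']
      linarith
  · right
    exact not_lt.mp h

theorem qt_eq_of_ge (m : ℕ) {x : ℝ} (h : (m : ℝ) ≤ |x|) : qt m x = Fin.last (2 * m ^ 2) := by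
  unfold qt
  rw [if_neg (not_lt.mpr h)]

/-- If the class of a small `x` is not the last one. -/
theorem qt_ne_last (m : ℕ) (hm : 0 < m) {x : ℝ} (h : |x| < m) :
    qt m x ≠ Fin.last (2 * m ^ 2) := by
  have hm' : (0 : ℝ) < m := by exact_mod_cast hm
  obtain ⟨h2, h3⟩ := abs_lt.mp h
  have h4 : 0 ≤ (x + m) * m := mul_nonneg (by linarith) hm'.le
  have h5 : (x + m) * m < ((2 * m ^ 2 : ℕ) : ℝ) := by
    push_cast
    nlinarith
  have h6 : ⌊(x + m) * m⌋₊ < 2 * m ^ 2 := (Nat.floor_lt h4).mpr h5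
  unfold qt
  rw [if_pos h]
  intro h7
  have h8 := congrArg Fin.val h7
  simp only [Fin.val_last] at h8
  rw [min_eq_left h6.le] at h8
  omega

/-- Gaussian weight of the cells. -/
theorem cell_weight (β : ℝ) (hβ : 0 < β) : ∀ᶠ m : ℕ in atTop, ∀ a : Fin (2 * m ^ 2 + 1),
    ∫⁻ x in {x | qt m x = a}, ENNReal.ofReal (Real.exp (-β * x ^ 2)) ≤
      ENNReal.ofReal (1 / m) := by
  have hlim : Tendsto (fun m : ℕ => (m : ℝ) * (Real.exp (-(β / 2) * (m : ℝ) ^ 2) *
      Real.sqrt (Real.pi / (β / 2)))) atTop (𝓝 0) := by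
    have h1 : Tendsto (fun x : ℝ => x ^ 1 * Real.exp (-(β / 2) * x)) atTop (𝓝 0) := by
      have := tendsto_rpow_mul_exp_neg_mul_atTop_nhds_zero 1 (β / 2) (by positivity)
      simpa using this
    have h2 : Tendsto (fun m : ℕ => (m : ℝ) * Real.exp (-(β / 2) * (m : ℝ) ^ 2)) atTop (𝓝 0) := by
      have h3 : Tendsto (fun m : ℕ => (m : ℝ) ^ 1 * Real.exp (-(β / 2) * (m : ℝ))) atTop (𝓝 0) :=
        h1.comp tendsto_natCast_atTop_atTop
      refine squeeze_zero (fun m => by positivity) (fun m => ?_) h3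
      rw [pow_one]
      refine mul_le_mul_of_nonneg_left (Real.exp_le_exp.mpr ?_) (Nat.cast_nonneg m)
      have h4 : (m : ℝ) ≤ (m : ℝ) ^ 2 := by
        rcases Nat.eq_zero_or_pos m with h | h
        · subst h; simp
        · have : (1 : ℝ) ≤ m := by exact_mod_cast h
          nlinarith
      nlinarith
    have h3 := h2.mul_const (Real.sqrt (Real.pi / (β / 2)))
    rw [zero_mul] at h3
    refine h3.congr fun m => ?_
    ring
  have hev := (hlim.eventually (gt_mem_nhds (show (0 : ℝ) < 1 by norm_num))).and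
    (eventually_gt_atTop 0)
  filter_upwards [hev] with m hm a
  obtain ⟨hm1, hm0⟩ := hm
  have hm' : (0 : ℝ) < m := by exact_mod_cast hm0
  by_cases ha : a = Fin.last (2 * m ^ 2)
  · -- the unbounded cell
    have hsub : {x | qt m x = a} ⊆ {x : ℝ | (m : ℝ) ≤ |x|} := by
      intro x hx
      by_contra h
      have hx' : qt m x = a := hx
      rw [ha] at hx'
      exact qt_ne_last m hm0 (not_le.mp h) hx'
    have hms : MeasurableSet {x : ℝ | (m : ℝ) ≤ |x|} :=
      measurableSet_le measurable_const (by fun_prop)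
    calc ∫⁻ x in {x | qt m x = a}, ENNReal.ofReal (Real.exp (-β * x ^ 2))
        ≤ ∫⁻ x in {x : ℝ | (m : ℝ) ≤ |x|}, ENNReal.ofReal (Real.exp (-β * x ^ 2)) :=
          lintegral_mono_set hsub
      _ ≤ ∫⁻ x in {x : ℝ | (m : ℝ) ≤ |x|}, ENNReal.ofReal (Real.exp (-(β / 2) * (m : ℝ) ^ 2) *
            Real.exp (-(β / 2) * x ^ 2)) := by
          refine setLIntegral_mono' hms ?_
          intro x hx
          apply ENNReal.ofReal_le_ofReal
          rw [← Real.exp_add]
          apply Real.exp_le_exp.mpr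
          have hx' : (m : ℝ) ≤ |x| := hx
          have : (m : ℝ) ^ 2 ≤ x ^ 2 := by
            rw [← sq_abs x]
            exact pow_le_pow_left₀ hm'.le hx' 2
          nlinarith
      _ ≤ ∫⁻ x, ENNReal.ofReal (Real.exp (-(β / 2) * (m : ℝ) ^ 2) *
            Real.exp (-(β / 2) * x ^ 2)) := setLIntegral_le_lintegral _ _
      _ = ENNReal.ofReal (Real.exp (-(β / 2) * (m : ℝ) ^ 2) *
            Real.sqrt (Real.pi / (β / 2))) := by
          rw [← ofReal_integral_eq_lintegral_ofReal, integral_const_mul, integral_gaussian]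
          · exact (integrable_exp_neg_mul_sq (by positivity)).const_mul _
          · exact ae_of_all _ fun x => by positivity
      _ ≤ _ := by
          apply ENNReal.ofReal_le_ofReal
          rw [le_div_iff₀ hm']
          calc _ = (m : ℝ) * (Real.exp (-(β / 2) * (m : ℝ) ^ 2) *
              Real.sqrt (Real.pi / (β / 2))) := by ring
            _ ≤ 1 := hm1.le
  · have hsub : {x | qt m x = a} ⊆ Icc ((a : ℝ) / m - m) (((a : ℝ) + 1) / m - m) := by
      intro x hx
      rcases qt_cell_subset m hm0 a hx with h | h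
      · exact h
      · exfalso
        apply ha
        have hx' : qt m x = a := hx
        rw [← hx', qt_eq_of_ge m h]
    calc ∫⁻ x in {x | qt m x = a}, ENNReal.ofReal (Real.exp (-β * x ^ 2))
        ≤ ∫⁻ x in Icc ((a : ℝ) / m - m) (((a : ℝ) + 1) / m - m), 1 := by
          refine (lintegral_mono_set hsub).trans (lintegral_mono fun x => ?_)
          rw [← ENNReal.ofReal_one]
          apply ENNReal.ofReal_le_ofReal
          rw [Real.exp_le_one_iff]
          nlinarith [sq_nonneg x]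
      _ = ENNReal.ofReal (1 / m) := by
          rw [setLIntegral_one, Real.volume_Icc]
          congr 1
          ring

/-! ### Kronecker noise -/

variable {V : Type*} [Fintype V] [DecidableEq V]

/-- `B` applied to each component. -/
def kron (k : ℕ) (B : Matrix V V ℝ) : Matrix (V × Fin k) (V × Fin k) ℝ :=
  B ⊗ₖ (1 : Matrix (Fin k) (Fin k) ℝ)

omit [Fintype V] [DecidableEq V] in
theorem kron_apply (k : ℕ) (B : Matrix V V ℝ) (v w : V) (a b : Fin k) :
    kron k B (v, a) (w, b) = if a = b then B v w else 0 := by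
  simp [kron, Matrix.kroneckerMap_apply, Matrix.one_apply]

theorem det_kron (k : ℕ) (B : Matrix V V ℝ) : (kron k B).det = B.det ^ k := by
  unfold kron
  rw [Matrix.det_kronecker]
  simp

omit [DecidableEq V] in
theorem kron_mulVec (k : ℕ) (B : Matrix V V ℝ) (ξ : V × Fin k → ℝ) (v : V) (a : Fin k) :
    (kron k B *ᵥ ξ) (v, a) = ∑ w, B v w * ξ (w, a) := by
  rw [Matrix.mulVec, dotProduct, Fintype.sum_prod_type]
  refine Finset.sum_congr rfl fun w _ => ?_
  simp only [kron_apply]
  rw [Finset.sum_eq_single a]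
  · simp
  · intro b _ hb
    rw [if_neg (Ne.symm hb), zero_mul]
  · simp

/-- Norm bound for the noise matrix. -/
theorem noiseM_norm {A : Matrix V V ℝ} (hA : A.IsHermitian) (τ E : ℝ) {δ : ℝ} (hδ : 0 < δ)
    (x : V → ℝ) :
    ∑ v, (∑ w, noiseM hA τ (E + δ * Complex.I) v w * x w) ^ 2 ≤
      (τ / δ) ^ 2 * ∑ w, x w ^ 2 := by
  have hB : ∀ y : V → ℝ, ∑ i, ((evM hA *ᵥ y) i) ^ 2 = ∑ w, y w ^ 2 := by
    intro y
    have : (evM hA *ᵥ y) ⬝ᵥ (evM hA *ᵥ y) = y ⬝ᵥ y := by
      rw [Matrix.dotProduct_mulVec, ← Matrix.mulVec_transpose, Matrix.mulVec_mulVec,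
        transpose_mul_evM, Matrix.one_mulVec]
    simpa [dotProduct, sq] using this
  have hBt : ∀ y : V → ℝ, ∑ i, (((evM hA)ᵀ *ᵥ y) i) ^ 2 = ∑ w, y w ^ 2 := by
    intro y
    have : ((evM hA)ᵀ *ᵥ y) ⬝ᵥ ((evM hA)ᵀ *ᵥ y) = y ⬝ᵥ y := by
      rw [Matrix.dotProduct_mulVec, ← Matrix.mulVec_transpose, Matrix.mulVec_mulVec,
        Matrix.transpose_transpose, evM_mul_transpose, Matrix.one_mulVec]
    simpa [dotProduct, sq] using this
  have h1 : ∀ v, ∑ w, noiseM hA τ (E + δ * Complex.I) v w * x w =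
      ((evM hA)ᵀ *ᵥ (diagonal (fun i => τ / ‖(hA.eigenvalues i : ℂ) - (E + δ * Complex.I)‖) *ᵥ
        (evM hA *ᵥ x))) v := by
    intro v
    rw [Matrix.mulVec_mulVec, Matrix.mulVec_mulVec]
    rfl
  simp_rw [h1]
  rw [hBt, ← hB x, Finset.mul_sum]
  refine Finset.sum_le_sum fun i _ => ?_
  rw [Matrix.mulVec_diagonal, mul_pow]
  refine mul_le_mul_of_nonneg_right ?_ (sq_nonneg _)
  rw [div_pow, div_pow, norm_sub_sq]
  apply div_le_div_of_nonneg_left (sq_nonneg _) (by positivity)
  nlinarith [sq_nonneg (hA.eigenvalues i - E)]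

variable {ι : Type*} [Fintype ι]

theorem integral_sq_gauss : ∫ x, x ^ 2 ∂(gaussianReal 0 1) = 1 := by
  have h := variance_id_gaussianReal (μ := 0) (v := 1)
  rw [variance_eq_integral measurable_id.aemeasurable] at h
  simp only [id_eq, integral_id_gaussianReal, sub_zero, NNReal.coe_one] at h
  exact h

theorem integrable_sq_gauss : Integrable (fun x : ℝ => x ^ 2) (gaussianReal 0 1) := by
  have h : MemLp id 2 (gaussianReal 0 1) := memLp_id_gaussianReal 2
  have := h.integrable_sq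
  simpa using this

/-- `P(|ξ|² > 4N) ≤ 1/4`. -/
theorem stdG_energy : stdG ι {ξ | 4 * (Fintype.card ι : ℝ) < ∑ i, ξ i ^ 2} ≤
    ENNReal.ofReal (1 / 4) := by
  have hint : ∀ i : ι, Integrable (fun ξ : ι → ℝ => ξ i ^ 2) (stdG ι) := fun i =>
    (measurePreserving_eval (fun _ : ι => gaussianReal 0 1) i).integrable_comp_of_integrable
      integrable_sq_gauss
  have hI : ∫ ξ, ∑ i, ξ i ^ 2 ∂(stdG ι) = Fintype.card ι := by
    rw [integral_finsetSum _ (fun i _ => hint i)]
    have : ∀ i : ι, ∫ ξ, ξ i ^ 2 ∂(stdG ι) = 1 := by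
      intro i
      rw [← integral_sq_gauss]
      exact integral_comp_eval (μ := fun _ : ι => gaussianReal 0 1) (i := i)
        (f := fun x : ℝ => x ^ 2) integrable_sq_gauss.aestronglyMeasurable
    simp [this]
  rcases Nat.eq_zero_or_pos (Fintype.card ι) with h0 | h0
  · have : {ξ : ι → ℝ | 4 * (Fintype.card ι : ℝ) < ∑ i, ξ i ^ 2} = ∅ := by
      have he : IsEmpty ι := Fintype.card_eq_zero_iff.mp h0
      ext ξ
      simp
    rw [this, measure_empty]
    exact zero_le
  · have hM := mul_meas_ge_le_integral_of_nonneg (μ := stdG ι) (f := fun ξ : ι → ℝ => ∑ i, ξ i ^ 2)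
      (ae_of_all _ fun ξ => Finset.sum_nonneg fun i _ => sq_nonneg _)
      (integrable_finsetSum _ fun i _ => hint i) (4 * (Fintype.card ι : ℝ))
    rw [hI] at hM
    have h0' : (0 : ℝ) < Fintype.card ι := by exact_mod_cast h0
    rw [← ofReal_measureReal]
    apply ENNReal.ofReal_le_ofReal
    have h2 : (stdG ι).real {ξ : ι → ℝ | 4 * (Fintype.card ι : ℝ) < ∑ i, ξ i ^ 2} ≤
        (stdG ι).real {ξ : ι → ℝ | 4 * (Fintype.card ι : ℝ) ≤ ∑ i, ξ i ^ 2} :=
      measureReal_mono (by
        intro ξ hξ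
        rw [Set.mem_ofPred_eq] at hξ ⊢
        exact hξ.le)
    refine h2.trans ?_
    have h3 : 4 * (Fintype.card ι : ℝ) *
        (stdG ι).real {ξ : ι → ℝ | 4 * (Fintype.card ι : ℝ) ≤ ∑ i, ξ i ^ 2} ≤ Fintype.card ι := hM
    have h4 : (Fintype.card ι : ℝ) * (4 *
        (stdG ι).real {ξ : ι → ℝ | 4 * (Fintype.card ι : ℝ) ≤ ∑ i, ξ i ^ 2}) ≤
        (Fintype.card ι : ℝ) * 1 := by linarith
    have h5 := le_of_mul_le_mul_left h4 h0'
    linarith

end Vale.Agent.P156.H814
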