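import Vale.Agent.P156.H814.Cells

/-!
# P156, D2: the counting inequality for one graph
-/

open MeasureTheory ProbabilityTheory Matrix Set Filter Topology
open scoped ENNReal NNReal Kronecker

noncomputable section

namespace Vale.Agent.P156.H814

open Vale.Agent.P156 Vale.Agent.P156.H801 Vale.Agent.P156.H690

/-- The colouring of a flat field. -/
def colOf (m : ℕ) {n k : ℕ} (y : Fin n × Fin k → ℝ) : Fin n → Fin k → Fin (2 * m ^ 2 + 1) :=
  fun v a => qt m (y (v, a))

open Classical in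
/-- Number of colourings with small `Phi`. -/
theorem card_phi_le {n d : ℕ} {C : Type*} [Fintype C] [DecidableEq C] (G : SimpleGraph (Fin n))
    {h Z : ℝ} (hZ : ∑ c : Fin n → C, Real.exp (-(n * Phi G d c)) ≤ Z) :
    (((Finset.univ : Finset (Fin n → C)).filter fun c => Phi G d c ≤ h).card : ℝ) ≤
      Real.exp (n * h) * Z := by
  have h1 : (((Finset.univ : Finset (Fin n → C)).filter fun c => Phi G d c ≤ h).card : ℝ) *
      Real.exp (-(n * h)) ≤ Z := by
    refine le_trans ?_ hZ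
    rw [← nsmul_eq_mul, ← Finset.sum_const]
    calc ∑ _c ∈ (Finset.univ : Finset (Fin n → C)).filter (fun c => Phi G d c ≤ h),
          Real.exp (-(n * h))
        ≤ ∑ c ∈ (Finset.univ : Finset (Fin n → C)).filter (fun c => Phi G d c ≤ h),
          Real.exp (-(n * Phi G d c)) := by
          refine Finset.sum_le_sum fun c hc => ?_
          rw [Finset.mem_filter] at hc
          apply Real.exp_le_exp.mpr
          have : (n : ℝ) * Phi G d c ≤ n * h := mul_le_mul_of_nonneg_left hc.2 (Nat.cast_nonneg n)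
          linarith
      _ ≤ _ := Finset.sum_le_sum_of_subset_of_nonneg (Finset.filter_subset _ _)
          fun c _ _ => (Real.exp_pos _).le
  rw [Real.exp_neg] at h1
  have h2 := mul_le_mul_of_nonneg_right h1 (Real.exp_pos (n * h)).le
  rw [mul_assoc, inv_mul_cancel₀ (Real.exp_pos _).ne', mul_one] at h2
  linarith

theorem count_ineq {n k d m : ℕ} (hn : 0 < n) (hm : 0 < m) (G : SimpleGraph (Fin n))
    (B : Matrix (Fin n) (Fin n) ℝ) (hB : B.det ≠ 0) (f : Fin n × Fin k → ℝ)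
    {β κ M h Z : ℝ} (hβ : 0 < β) (hκ : 0 ≤ κ)
    (hw : ∀ a : Fin (2 * m ^ 2 + 1), ∫⁻ x in {x | qt m x = a},
      ENNReal.ofReal (Real.exp (-β * x ^ 2)) ≤ ENNReal.ofReal (1 / m))
    (hZ : ∑ c : Fin n → (Fin k → Fin (2 * m ^ 2 + 1)), Real.exp (-(n * Phi G d c)) ≤ Z)
    (hP : ENNReal.ofReal (1 / 2) ≤ stdG (Fin n × Fin k)
      {ξ | Phi G d (colOf m (f + kron k B *ᵥ ξ)) ≤ h ∧
        ∑ i, ((f + kron k B *ᵥ ξ) i) ^ 2 ≤ M * n})
    (hκN : Real.exp (-(κ ^ 2 / 4) * ((n : ℝ) * k)) ≤ 1 / 4) :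
    (k : ℝ) / 2 * Real.log (2 * Real.pi) + (1 - κ) * k / 2 + k * (Real.log |B.det| / n) +
      k * Real.log m ≤ h + β * M + (Real.log Z + Real.log 4) / n := by
  classical
  have hn' : (0 : ℝ) < n := by exact_mod_cast hn
  have hm' : (0 : ℝ) < m := by exact_mod_cast hm
  have hcard : Fintype.card (Fin n × Fin k) = n * k := by simp
  set 𝒟 : Finset (Fin n → Fin k → Fin (2 * m ^ 2 + 1)) :=
    Finset.univ.filter fun c => Phi G d c ≤ h with h𝒟
  set 𝒞 : Finset (Fin n × Fin k → Fin (2 * m ^ 2 + 1)) :=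
    𝒟.image (fun c i => c i.1 i.2) with h𝒞
  have hle𝒞 : (𝒞.card : ℝ) ≤ Real.exp (n * h) * Z := by
    refine le_trans ?_ (card_phi_le (C := Fin k → Fin (2 * m ^ 2 + 1)) G (d := d) (h := h) hZ)
    exact_mod_cast Finset.card_image_le
  have hZ0 : 0 < Z := lt_of_lt_of_le
    (Finset.sum_pos (fun c _ => Real.exp_pos _) Finset.univ_nonempty) hZ
  have hdetL : (kron k B).det ≠ 0 := by
    rw [det_kron]
    exact pow_ne_zero _ hB
  have hcount := colour_count (ι := Fin n × Fin k) (qt m) (measurableSet_qt m) β (M * n) κ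
    (ENNReal.ofReal (1 / m)) hβ hκ hw (kron k B) hdetL f 𝒞
  have hsub : {ξ | Phi G d (colOf m (f + kron k B *ᵥ ξ)) ≤ h ∧
        ∑ i, ((f + kron k B *ᵥ ξ) i) ^ 2 ≤ M * n} ⊆
      {ξ | (fun i => qt m ((f + kron k B *ᵥ ξ) i)) ∈ 𝒞 ∧
        ∑ i, ((f + kron k B *ᵥ ξ) i) ^ 2 ≤ M * n} := by
    intro ξ hξ
    rw [Set.mem_ofPred_eq] at hξ ⊢
    refine ⟨?_, hξ.2⟩
    rw [h𝒞, Finset.mem_image]
    refine ⟨colOf m (f + kron k B *ᵥ ξ), ?_, rfl⟩
    rw [h𝒟, Finset.mem_filter]
    exact ⟨Finset.mem_univ _, hξ.1⟩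
  have h1 := hP.trans ((measure_mono hsub).trans hcount)
  rw [hcard, det_kron] at h1
  push_cast at h1
  have e1 : ENNReal.ofReal (1 / (m : ℝ)) ^ (n * k) = ENNReal.ofReal ((1 / (m : ℝ)) ^ (n * k)) := by
    rw [ENNReal.ofReal_pow (by positivity)]
  have e2 : (𝒞.card : ℝ≥0∞) = ENNReal.ofReal (𝒞.card : ℝ) := by
    rw [ENNReal.ofReal_natCast]
  rw [e1, e2, ← ENNReal.ofReal_mul (by positivity), ← ENNReal.ofReal_mul (by positivity),
    ← ENNReal.ofReal_mul (by positivity), ← ENNReal.ofReal_mul (by positivity),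
    ← ENNReal.ofReal_add (by positivity) (by positivity),
    ENNReal.ofReal_le_ofReal_iff (by positivity)] at h1
  have h2 : (1 : ℝ) / 4 ≤ (Real.sqrt (2 * Real.pi))⁻¹ ^ (n * k) *
      Real.exp (-((1 - κ) * (n * k)) / 2) * (|B.det ^ k|⁻¹ *
        ((Real.exp (n * h) * Z) * (Real.exp (β * (M * n)) * (1 / (m : ℝ)) ^ (n * k)))) := by
    have h3 : (1 : ℝ) / 4 ≤ (Real.sqrt (2 * Real.pi))⁻¹ ^ (n * k) *
      Real.exp (-((1 - κ) * (n * k)) / 2) * (|B.det ^ k|⁻¹ *
        ((𝒞.card : ℝ) * (Real.exp (β * (M * n)) * (1 / (m : ℝ)) ^ (n * k)))) := by linarith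
    refine h3.trans ?_
    gcongr
  have habs : 0 < |B.det| := abs_pos.mpr hB
  have h4 := Real.log_le_log (by norm_num) h2
  have hs2 : (0 : ℝ) < Real.sqrt (2 * Real.pi) := Real.sqrt_pos.mpr (by positivity)
  rw [abs_pow] at h4
  rw [Real.log_mul (by positivity) (by positivity), Real.log_mul (by positivity) (by positivity),
    Real.log_mul (by positivity) (by positivity), Real.log_mul (by positivity) (by positivity),
    Real.log_mul (by positivity) (by positivity), Real.log_mul (by positivity) (by positivity),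
    Real.log_exp, Real.log_exp, Real.log_exp, Real.log_pow, Real.log_pow, Real.log_inv,
    Real.log_inv, Real.log_pow, Real.log_sqrt (by positivity), one_div, one_div, Real.log_inv,
    Real.log_inv] at h4
  push_cast at h4
  have h5 : (k : ℝ) / 2 * Real.log (2 * Real.pi) + (1 - κ) * k / 2 +
      k * (Real.log |B.det| / n) + k * Real.log m - (h + β * M) ≤
      (Real.log Z + Real.log 4) / n := by
    rw [le_div_iff₀ hn']
    have e3 : k * (Real.log |B.det| / n) * n = k * Real.log |B.det| := by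
      field_simp
    nlinarith [h4, e3]
  linarith

end Vale.Agent.P156.H814
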