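import Vale.Agent.P156.H814.Typ
import Vale.Agent.P156.B.Star
import Vale.Agent.P156.H490.Avg

/-!
# P156, D2: the functional `Phi` in terms of the law of the colours of a star, flat coordinates
-/

open Finset Filter Topology

noncomputable section

namespace Vale.Agent.P156.H814

open Vale.Agent.P156 Vale.Agent.P156.H690

theorem reg_of_mem {n d : ℕ} {G : SimpleGraph (Fin n)} (hG : G ∈ regularGraphs n d) :
    B.Reg d G := by
  classical
  intro v
  have h := H490.mem_regularGraphs.1 hG v
  rw [← SimpleGraph.card_neighborSet_eq_degree] at h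
  rw [Set.ncard_eq_toFinset_card', Set.toFinset_card]
  convert h

theorem isStar_iff {n d : ℕ} {G : SimpleGraph (Fin n)} (hG : G ∈ regularGraphs n d)
    {v : Fin n} {l : Fin d → Fin n} :
    IsStar G v l ↔ Function.Injective l ∧ ∀ k, G.Adj v (l k) := by
  constructor
  · rintro ⟨h1, h2⟩
    exact ⟨h1, fun k => (h2 _).2 ⟨k, rfl⟩⟩
  · rintro ⟨h1, h2⟩
    refine ⟨h1, fun w => ?_⟩
    have h3 := B.range_eq_neighborSet (reg_of_mem hG) h1 h2
    constructor
    · intro hw
      have : w ∈ Set.range l := by rw [h3]; exact hw
      exact this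
    · rintro ⟨k, rfl⟩
      exact h2 k

theorem starsF_eq {n d : ℕ} {G : SimpleGraph (Fin n)} (hG : G ∈ regularGraphs n d) :
    starsF d G = B.stars d G := by
  classical
  ext t
  unfold starsF
  rw [B.mem_stars, Finset.mem_filter, isStar_iff hG]
  simp

theorem card_starsF {n d : ℕ} {G : SimpleGraph (Fin n)} (hG : G ∈ regularGraphs n d) :
    ((starsF d G).card : ℝ) = n * d.factorial := by
  have := H490.card_starsOf hG
  have h2 : starsF d G = H490.starsOf d G := rfl
  rw [h2, this]
  push_cast
  rfl

variable {n d k : ℕ} {C : Type*}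

open Classical in
theorem starLaw_eq {G : SimpleGraph (Fin n)} (hG : G ∈ regularGraphs n d) (c : Fin n → C)
    (y : St d C) : starLaw G d c y =
      (((starsF d G).filter fun p => ((c p.1, fun i => c (p.2 i)) : St d C) = y).card : ℝ) /
        (starsF d G).card := by
  rw [card_starsF hG, starsF_eq hG]
  unfold starLaw
  rw [Fintype.card_fin]
  congr 1
  have h := B.sum_stars (d := d) (G := G)
    (fun t => if ((c t.1, fun i => c (t.2 i)) : St d C) = y then (1 : ℝ) else 0)
  rw [Finset.card_filter]
  push_cast
  rw [h]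
  refine Finset.sum_congr rfl fun v _ => ?_
  refine Finset.sum_congr ?_ fun o _ => rfl
  ext o
  unfold H849.ords
  rw [B.mem_ords]
  simp

open Classical in
theorem edgeLaw_eq {q : ℕ} {G : SimpleGraph (Fin n)} (hG : G ∈ regularGraphs n (q + 1))
    (c : Fin n → C) (e : C × C) : edgeLaw G (q + 1) c e =
      (((starsF (q + 1) G).filter fun p => (c p.1, c (p.2 0)) = e).card : ℝ) /
        (starsF (q + 1) G).card := by
  rw [card_starsF hG, starsF_eq hG]
  unfold edgeLaw
  rw [Fintype.card_fin]
  have h := B.sum_stars_edge (reg_of_mem hG) (0 : Fin (q + 1))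
    (fun v w => if (c v, c w) = e then (1 : ℝ) else 0)
  have h1 : (((B.stars (q + 1) G).filter fun p => (c p.1, c (p.2 0)) = e).card : ℝ) =
      ∑ t ∈ B.stars (q + 1) G, if (c t.1, c (t.2 0)) = e then (1 : ℝ) else 0 := by
    rw [Finset.card_filter]
    push_cast
    rfl
  have h2 : (((univ : Finset (Fin n × Fin n)).filter
      fun p => G.Adj p.1 p.2 ∧ (c p.1, c p.2) = e).card : ℝ) =
      B.esum G (fun v w => if (c v, c w) = e then (1 : ℝ) else 0) := by
    rw [Finset.card_filter]
    push_cast
    unfold B.esum
    rw [Fintype.sum_prod_type]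
    refine Finset.sum_congr rfl fun v _ => Finset.sum_congr rfl fun w _ => ?_
    by_cases ha : G.Adj v w <;> by_cases hb : (c v, c w) = e <;> simp [ha, hb]
  rw [h1, h2]
  rcases Nat.eq_zero_or_pos n with hn | hn
  · subst hn
    simp
  · have hn' : (0 : ℝ) < n := by exact_mod_cast hn
    have hf : (0 : ℝ) < ((q + 1).factorial : ℝ) := by exact_mod_cast Nat.factorial_pos _
    rw [div_eq_div_iff (by positivity) (by positivity)]
    have h3 : ((q + 1 : ℕ) : ℝ) * (∑ t ∈ B.stars (q + 1) G,
        if (c t.1, c (t.2 0)) = e then (1 : ℝ) else 0) =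
        ((q + 1).factorial : ℝ) *
          B.esum G (fun v w => if (c v, c w) = e then (1 : ℝ) else 0) := h
    linear_combination (-(n : ℝ)) * h3

/-! ### Flat coordinates -/

open Classical in
/-- The law of the colours of a star, flat coordinates. -/
def fracF (G : SimpleGraph (Fin n)) (c : Fin n → Fin k → C) (s : Option (Fin d) × Fin k → C) : ℝ :=
  (((starsF d G).filter fun p => ∀ i, c (nd p i.1) i.2 = s i).card : ℝ) / (starsF d G).card

open Classical in
/-- Marginals of laws on `ι → C`. -/
def margL {ι ι' : Type*} [Fintype ι] [DecidableEq ι] [Fintype C] (r : ι' → ι) (P : (ι → C) → ℝ) (s' : ι' → C) :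
    ℝ := ∑ s : ι → C, if s ∘ r = s' then P s else 0

/-- The edge `(none, some 0)` inside the star. -/
def re (q k : ℕ) (i : Option (Fin 1) × Fin k) : Option (Fin (q + 1)) × Fin k :=
  (i.1.map fun _ => 0, i.2)

open Classical in
/-- `Phi` as a function of the flat star law. -/
def PhiL [Fintype C] (q k : ℕ) (P : (Option (Fin (q + 1)) × Fin k → C) → ℝ) : ℝ :=
  ent P - ((q + 1 : ℕ) : ℝ) / 2 * ent (margL (re q k) P)

/-- stars and flat stars of colours -/
def flatE (d k : ℕ) (C : Type*) : (Option (Fin d) × Fin k → C) ≃ St d (Fin k → C) where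
  toFun s := (fun a => s (none, a), fun j a => s (some j, a))
  invFun y i := i.1.elim (y.1 i.2) (fun j => y.2 j i.2)
  left_inv s := by
    funext i
    obtain ⟨i, a⟩ := i
    cases i <;> rfl
  right_inv y := rfl

/-- edges and flat edges of colours -/
def flatE2 (k : ℕ) (C : Type*) : (Option (Fin 1) × Fin k → C) ≃ (Fin k → C) × (Fin k → C) where
  toFun s := (fun a => s (none, a), fun a => s (some 0, a))
  invFun y i := i.1.elim (y.1 i.2) (fun _ => y.2 i.2)
  left_inv s := by
    funext i
    obtain ⟨i, a⟩ := i
    cases i with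
    | none => rfl
    | some j =>
      have : j = 0 := Subsingleton.elim _ _
      subst this
      rfl
  right_inv y := rfl

theorem ent_equiv {X Y : Type*} [Fintype X] [Fintype Y] (e : X ≃ Y) (p : Y → ℝ) (p' : X → ℝ)
    (h : ∀ x, p' x = p (e x)) : ent p = ent p' := by
  unfold ent
  rw [← Equiv.sum_comp e]
  exact Finset.sum_congr rfl fun x _ => by rw [h]

theorem fracF_eq {G : SimpleGraph (Fin n)} (hG : G ∈ regularGraphs n d)
    (c : Fin n → Fin k → C) (s : Option (Fin d) × Fin k → C) :
    fracF G c s = starLaw G d c (flatE d k C s) := by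
  rw [starLaw_eq hG]
  unfold fracF
  congr 2
  refine congrArg Finset.card ?_
  ext p
  simp only [Finset.mem_filter]
  refine and_congr_right fun _ => ?_
  constructor
  · intro h
    refine Prod.ext ?_ ?_
    · funext a
      exact h (none, a)
    · funext j a
      exact h (some j, a)
  · rintro h ⟨i, a⟩
    cases i with
    | none => exact congrFun (congrArg Prod.fst h) a
    | some j => exact congrFun (congrFun (congrArg Prod.snd h) j) a

open Classical in
theorem marg_fracF [Fintype C] {q : ℕ} {G : SimpleGraph (Fin n)}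
    (hG : G ∈ regularGraphs n (q + 1)) (c : Fin n → Fin k → C)
    (s' : Option (Fin 1) × Fin k → C) :
    margL (re q k) (fracF G c) s' = edgeLaw G (q + 1) c (flatE2 k C s') := by
  rw [edgeLaw_eq hG]
  have h1 : margL (re q k) (fracF G c) s' = ∑ s : Option (Fin (q + 1)) × Fin k → C,
      (∑ p ∈ starsF (q + 1) G, if (s ∘ re q k = s' ∧ s = fun i => c (nd p i.1) i.2) then (1 : ℝ)
        else 0) / (starsF (q + 1) G).card := by
    unfold margL fracF
    refine Finset.sum_congr rfl fun s _ => ?_
    split_ifs with h
    · congr 1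
      rw [Finset.card_filter]
      push_cast
      refine Finset.sum_congr rfl fun p _ => ?_
      refine if_congr ⟨fun h2 => ⟨h, ?_⟩, fun h2 i => ?_⟩ rfl rfl
      · funext i
        exact (h2 i).symm
      · exact (congrFun h2.2 i).symm
    · rw [Finset.sum_eq_zero, zero_div]
      intro p _
      rw [if_neg]
      rintro ⟨h2, _⟩
      exact h h2
  rw [h1, ← Finset.sum_div, Finset.sum_comm]
  congr 1
  rw [Finset.card_filter]
  push_cast
  refine Finset.sum_congr rfl fun p _ => ?_
  rw [Finset.sum_eq_single (fun i => c (nd p i.1) i.2)]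
  · refine if_congr ⟨fun h => ?_, fun h => ⟨?_, rfl⟩⟩ rfl rfl
    · refine Prod.ext ?_ ?_
      · funext a
        exact congrFun h.1 (none, a)
      · funext a
        exact congrFun h.1 (some 0, a)
    · funext i
      obtain ⟨i, a⟩ := i
      cases i with
      | none => exact congrFun (congrArg Prod.fst h) a
      | some j =>
        have : j = 0 := Subsingleton.elim _ _
        subst this
        exact congrFun (congrArg Prod.snd h) a
  · intro s _ hs
    rw [if_neg]
    rintro ⟨_, h⟩
    exact hs h
  · intro h
    exact absurd (Finset.mem_univ _) h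

/-- `Phi` in terms of the flat law of the colours of a star. -/
theorem Phi_eq [Fintype C] {q : ℕ} {G : SimpleGraph (Fin n)}
    (hG : G ∈ regularGraphs n (q + 1)) (c : Fin n → Fin k → C) :
    Phi G (q + 1) c = PhiL q k (fracF G c) := by
  classical
  unfold Phi PhiL
  rw [ent_equiv (flatE (q + 1) k C) (starLaw G (q + 1) c) (fracF G c) (fun s => fracF_eq hG c s),
    ent_equiv (flatE2 k C) (edgeLaw G (q + 1) c) (margL (re q k) (fracF G c))
      (fun s => marg_fracF hG c s)]

theorem continuous_ent {X : Type*} [Fintype X] : Continuous (ent : (X → ℝ) → ℝ) := by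
  unfold ent
  exact continuous_finsetSum _ fun x _ => Real.continuous_negMulLog.comp (continuous_apply x)

theorem continuous_PhiL [Fintype C] (q k : ℕ) :
    Continuous (PhiL (C := C) q k) := by
  classical
  unfold PhiL
  refine continuous_ent.sub (continuous_const.mul (continuous_ent.comp ?_))
  refine continuous_pi fun s' => ?_
  unfold margL
  refine continuous_finsetSum _ fun s _ => ?_
  split_ifs
  · exact continuous_apply s
  · exact continuous_const

end Vale.Agent.P156.H814
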