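import Vale.Agent.P156.H814.Count
import Vale.Agent.P156.H814.StarLaw

/-!
# P156, D2: the counting inequality along a typical sequence
-/

open MeasureTheory ProbabilityTheory Matrix Set Filter Topology
open scoped ENNReal NNReal Kronecker

noncomputable section

namespace Vale.Agent.P156.H814

open Vale.Agent.P156 Vale.Agent.P156.H801 Vale.Agent.P156.H690

/-- The noise matrix of the graph `G` at `z_l`. -/
def noiseG {n : ℕ} (G : SimpleGraph (Fin n)) (τ lam : ℝ) (l : ℕ) : Matrix (Fin n) (Fin n) ℝ :=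
  noiseM (adj_isHermitian G) τ ((lam : ℂ) + ((1 / ((l : ℝ) + 1) : ℝ) : ℂ) * Complex.I)

/-- A field in flat coordinates. -/
def flatF {n k : ℕ} (f : Fin n → Fin k → ℝ) : Fin n × Fin k → ℝ := fun i => f i.1 i.2

/-- The energy constant. -/
def MM (k : ℕ) (τ : ℝ) (l : ℕ) : ℝ := 2 * k + 8 * k * (τ / (1 / ((l : ℝ) + 1))) ^ 2

theorem energy_le {n k : ℕ} (G : SimpleGraph (Fin n)) (τ lam : ℝ) (l : ℕ)
    (f : Fin n → Fin k → ℝ) (hf : ∑ v, ∑ a, f v a ^ 2 ≤ k * n) (ξ : Fin n × Fin k → ℝ)
    (hξ : ∑ i, ξ i ^ 2 ≤ 4 * (n * k)) :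
    ∑ i, ((flatF f + kron k (noiseG G τ lam l) *ᵥ ξ) i) ^ 2 ≤ MM k τ l * n := by
  have hδ : (0 : ℝ) < 1 / ((l : ℝ) + 1) := by positivity
  have h1 : ∀ i, ((flatF f + kron k (noiseG G τ lam l) *ᵥ ξ) i) ^ 2 ≤
      2 * (flatF f i) ^ 2 + 2 * ((kron k (noiseG G τ lam l) *ᵥ ξ) i) ^ 2 := by
    intro i
    rw [Pi.add_apply]
    nlinarith [sq_nonneg (flatF f i - (kron k (noiseG G τ lam l) *ᵥ ξ) i)]
  have h2 : ∑ i, (flatF f i) ^ 2 ≤ k * n := by
    rw [Fintype.sum_prod_type]
    exact hf
  have h3 : ∑ i, ((kron k (noiseG G τ lam l) *ᵥ ξ) i) ^ 2 ≤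
      (τ / (1 / ((l : ℝ) + 1))) ^ 2 * ∑ i, ξ i ^ 2 := by
    rw [Fintype.sum_prod_type_right, Fintype.sum_prod_type_right, Finset.mul_sum]
    refine Finset.sum_le_sum fun a _ => ?_
    simp only [kron_mulVec]
    exact noiseM_norm (adj_isHermitian G) τ lam hδ (fun w => ξ (w, a))
  calc ∑ i, ((flatF f + kron k (noiseG G τ lam l) *ᵥ ξ) i) ^ 2
      ≤ ∑ i, (2 * (flatF f i) ^ 2 + 2 * ((kron k (noiseG G τ lam l) *ᵥ ξ) i) ^ 2) :=
        Finset.sum_le_sum fun i _ => h1 i
    _ = 2 * ∑ i, (flatF f i) ^ 2 + 2 * ∑ i, ((kron k (noiseG G τ lam l) *ᵥ ξ) i) ^ 2 := by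
        rw [Finset.sum_add_distrib, Finset.mul_sum, Finset.mul_sum]
    _ ≤ 2 * (k * n) + 2 * ((τ / (1 / ((l : ℝ) + 1))) ^ 2 * (4 * (n * k))) := by
        have h4 := mul_le_mul_of_nonneg_left hξ (sq_nonneg (τ / (1 / ((l : ℝ) + 1))))
        linarith
    _ = _ := by unfold MM; ring

theorem zl_im (lam : ℝ) (l : ℕ) : (zl lam l).im = 1 / ((l : ℝ) + 1) := by
  unfold zl
  rw [Complex.add_im, Complex.ofReal_im, Complex.im_ofReal_mul]
  simp

/-- Union bound. -/
theorem half_le {α : Type*} [MeasurableSpace α] (μ : Measure α) [IsProbabilityMeasure μ]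
    {A B C : Set α} (h : ∀ x, x ∈ A ∨ x ∈ B ∨ x ∈ C) (hB : μ B ≤ ENNReal.ofReal (1 / 4))
    (hC : μ C ≤ ENNReal.ofReal (1 / 4)) : ENNReal.ofReal (1 / 2) ≤ μ A := by
  by_contra hA
  rw [not_le] at hA
  have h1 : (1 : ℝ≥0∞) ≤ μ A + (μ B + μ C) := by
    calc (1 : ℝ≥0∞) = μ univ := measure_univ.symm
      _ ≤ μ (A ∪ (B ∪ C)) := measure_mono fun x _ => h x
      _ ≤ μ A + μ (B ∪ C) := measure_union_le _ _
      _ ≤ _ := by gcongr; exact measure_union_le _ _
  have h2 : μ B + μ C ≤ ENNReal.ofReal (1 / 2) := by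
    calc μ B + μ C ≤ ENNReal.ofReal (1 / 4) + ENNReal.ofReal (1 / 4) := add_le_add hB hC
      _ = _ := by rw [← ENNReal.ofReal_add (by norm_num) (by norm_num)]; norm_num
  have h3 : μ A + (μ B + μ C) < ENNReal.ofReal (1 / 2) + ENNReal.ofReal (1 / 2) :=
    ENNReal.add_lt_add_of_lt_of_le (ne_top_of_le_ne_top ENNReal.ofReal_ne_top h2) hA h2
  rw [← ENNReal.ofReal_add (by norm_num) (by norm_num)] at h3
  norm_num at h3
  exact absurd h1 (not_le.mpr h3)

/-- **D2**: the counting inequality along a typical sequence. -/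
theorem d2_ineq {q k : ℕ} (hk : 0 < k) {lam : ℝ} {n : ℕ → ℕ} {G : ∀ j, SimpleGraph (Fin (n j))}
    (hT : TypSeq (q + 1) k lam n G) (f : ∀ j, Fin (n j) → Fin k → ℝ)
    (hf : ∀ j, ∑ v, ∑ a, f j v a ^ 2 ≤ k * n j) {τ : ℝ} (hτ : 0 < τ) (l : ℕ) (ml : ℂ)
    (hml : IsTreeStieltjes (q + 1) (zl lam l) ml)
    (P : ∀ m : ℕ, (Option (Fin (q + 1)) × Fin k → Fin (2 * m ^ 2 + 1)) → ℝ)
    (hLLN : ∀ (m : ℕ) (s : Option (Fin (q + 1)) × Fin k → Fin (2 * m ^ 2 + 1)) (ε : ℝ), 0 < ε →
      Tendsto (fun j => stdG (Fin (n j) × Fin k) {ξ | ε ≤ |fracF (G j)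
        (colOf m (flatF (f j) + kron k (noiseG (G j) τ lam l) *ᵥ ξ)) s - P m s|}) atTop (𝓝 0))
    {β : ℝ} (hβ : 0 < β) :
    ∀ᶠ m : ℕ in atTop, (k : ℝ) / 2 * Real.log (2 * Real.pi) + k / 2 +
      k * (Real.log τ - Um (q + 1) ml) + k * Real.log m ≤ PhiL q k (P m) + β * MM k τ l := by
  filter_upwards [cell_weight β hβ, eventually_gt_atTop 0] with m hw hm
  have hδ : (0 : ℝ) < 1 / ((l : ℝ) + 1) := by positivity
  have hzim : (zl lam l).im ≠ 0 := by
    rw [zl_im]
    positivity
  obtain ⟨K, hK⟩ := hT.cnt m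
  have hn : Tendsto (fun j => (n j : ℝ)) atTop atTop := tendsto_natCast_atTop_atTop.comp hT.lim
  -- the key inequality for fixed ε, κ
  have key : ∀ ε : ℝ, 0 < ε → ∀ κ : ℝ, 0 < κ →
      (k : ℝ) / 2 * Real.log (2 * Real.pi) + (1 - κ) * k / 2 +
      k * (Real.log τ - Um (q + 1) ml) + k * Real.log m ≤
        (PhiL q k (P m) + ε) + β * MM k τ l := by
    intro ε hε κ hκ
    -- continuity of PhiL
    have hcont := (continuous_PhiL (C := Fin (2 * m ^ 2 + 1)) q k).continuousAt (x := P m)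
    rw [Metric.continuousAt_iff] at hcont
    obtain ⟨ρ, hρ, hρ2⟩ := hcont ε hε
    -- eventually probability bounds
    have hsum : Tendsto (fun j => ∑ s : Option (Fin (q + 1)) × Fin k → Fin (2 * m ^ 2 + 1),
        stdG (Fin (n j) × Fin k) {ξ | ρ / 2 ≤ |fracF (G j)
        (colOf m (flatF (f j) + kron k (noiseG (G j) τ lam l) *ᵥ ξ)) s - P m s|}) atTop
        (𝓝 0) := by
      have := tendsto_finsetSum (Finset.univ : Finset
        (Option (Fin (q + 1)) × Fin k → Fin (2 * m ^ 2 + 1)))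
        (fun s _ => hLLN m s (ρ / 2) (by positivity))
      simpa using this
    have hev1 := hsum.eventually (ge_mem_nhds
      (show (0 : ℝ≥0∞) < ENNReal.ofReal (1 / 4) from ENNReal.ofReal_pos.mpr (by norm_num)))
    -- κ
    have hev2 : ∀ᶠ j in atTop, Real.exp (-(κ ^ 2 / 4) * ((n j : ℝ) * k)) ≤ 1 / 4 := by
      have hk' : (0 : ℝ) < k := by exact_mod_cast hk
      have h1 : Tendsto (fun j => Real.exp (-(κ ^ 2 / 4) * ((n j : ℝ) * k))) atTop (𝓝 0) := by
        refine Real.tendsto_exp_atBot.comp ?_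
        have h2 : Tendsto (fun j => (κ ^ 2 / 4 * k) * (n j : ℝ)) atTop atTop :=
          hn.const_mul_atTop (by positivity)
        refine (tendsto_neg_atTop_atBot.comp h2).congr fun j => ?_
        simp only [Function.comp_apply]
        ring
      exact h1.eventually (ge_mem_nhds (by norm_num))
    have hineq : ∀ᶠ j in atTop, (k : ℝ) / 2 * Real.log (2 * Real.pi) + (1 - κ) * k / 2 +
        k * (Real.log τ - Real.log ‖(cutMat (adj (G j)) ∅ (zl lam l)).det‖ / n j) +
        k * Real.log m ≤ (PhiL q k (P m) + ε) + β * MM k τ l +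
          (K * Real.log ((n j : ℝ) + 1) + Real.log 4) / n j := by
      filter_upwards [hev1, hev2, hK] with j h1 h2 h3
      have hnj := hT.pos j
      have hnj' : (0 : ℝ) < n j := by exact_mod_cast hnj
      have hdet : (noiseG (G j) τ lam l).det ≠ 0 :=
        det_noiseM_ne_zero _ hτ (by simpa [zl] using hzim)
      have hP : ENNReal.ofReal (1 / 2) ≤ stdG (Fin (n j) × Fin k)
          {ξ | Phi (G j) (q + 1) (colOf m (flatF (f j) + kron k (noiseG (G j) τ lam l) *ᵥ ξ)) ≤
            PhiL q k (P m) + ε ∧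
            ∑ i, ((flatF (f j) + kron k (noiseG (G j) τ lam l) *ᵥ ξ) i) ^ 2 ≤
              MM k τ l * n j} := by
        refine half_le (stdG (Fin (n j) × Fin k))
          (B := ⋃ s : Option (Fin (q + 1)) × Fin k → Fin (2 * m ^ 2 + 1),
            {ξ | ρ / 2 ≤ |fracF (G j)
              (colOf m (flatF (f j) + kron k (noiseG (G j) τ lam l) *ᵥ ξ)) s - P m s|})
          (C := {ξ | 4 * (Fintype.card (Fin (n j) × Fin k) : ℝ) < ∑ i, ξ i ^ 2}) ?_ ?_
          stdG_energy
        · intro ξ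
          by_cases hE : 4 * (Fintype.card (Fin (n j) × Fin k) : ℝ) < ∑ i, ξ i ^ 2
          · exact Or.inr (Or.inr hE)
          by_cases hS : ∃ s, ρ / 2 ≤ |fracF (G j)
              (colOf m (flatF (f j) + kron k (noiseG (G j) τ lam l) *ᵥ ξ)) s - P m s|
          · refine Or.inr (Or.inl ?_)
            rw [Set.mem_iUnion]
            exact hS
          · left
            push Not at hS hE
            refine ⟨?_, ?_⟩
            · rw [Phi_eq (hT.reg j)]
              have h4 : dist (fracF (G j)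
                  (colOf m (flatF (f j) + kron k (noiseG (G j) τ lam l) *ᵥ ξ))) (P m) < ρ := by
                refine lt_of_le_of_lt ((dist_pi_le_iff (by positivity)).mpr fun s => ?_)
                  (half_lt_self hρ)
                rw [Real.dist_eq]
                exact (hS s).le
              have h5 := hρ2 h4
              rw [Real.dist_eq] at h5
              linarith [(abs_lt.mp h5).2]
            · refine energy_le (G j) τ lam l (f j) (hf j) ξ ?_
              rw [Fintype.card_prod, Fintype.card_fin, Fintype.card_fin] at hE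
              push_cast at hE
              exact hE
        · calc _ ≤ ∑ s : Option (Fin (q + 1)) × Fin k → Fin (2 * m ^ 2 + 1),
                stdG (Fin (n j) × Fin k) {ξ | ρ / 2 ≤ |fracF (G j)
                (colOf m (flatF (f j) + kron k (noiseG (G j) τ lam l) *ᵥ ξ)) s - P m s|} :=
                measure_iUnion_fintype_le _ _
            _ ≤ _ := h1
      have h6 := count_ineq hnj hm (G j) (noiseG (G j) τ lam l) hdet (flatF (f j)) hβ hκ.le hw h3
        hP h2
      have h7 : Real.log |(noiseG (G j) τ lam l).det| / n j =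
          Real.log τ - Real.log ‖(cutMat (adj (G j)) ∅ (zl lam l)).det‖ / n j := by
        unfold noiseG
        rw [log_det_noiseM _ hτ (by simpa [zl] using hzim), cutMat_empty, Fintype.card_fin]
        unfold zl
        field_simp
      rw [h7, Real.log_pow] at h6
      exact h6
    have hL : Tendsto (fun j => (k : ℝ) / 2 * Real.log (2 * Real.pi) + (1 - κ) * k / 2 +
        k * (Real.log τ - Real.log ‖(cutMat (adj (G j)) ∅ (zl lam l)).det‖ / n j) +
        k * Real.log m) atTop (𝓝 ((k : ℝ) / 2 * Real.log (2 * Real.pi) + (1 - κ) * k / 2 +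
        k * (Real.log τ - Um (q + 1) ml) + k * Real.log m)) := by
      refine (((hT.det l ml hml).const_sub _).const_mul _).const_add _ |>.add_const _
    have hR : Tendsto (fun j => (PhiL q k (P m) + ε) + β * MM k τ l +
          (K * Real.log ((n j : ℝ) + 1) + Real.log 4) / n j) atTop
        (𝓝 ((PhiL q k (P m) + ε) + β * MM k τ l + 0)) := by
      refine Tendsto.const_add _ ?_
      have h1 : Tendsto (fun x : ℝ => (K * Real.log (x + 1) + Real.log 4) / x) atTop (𝓝 0) := by
        have h2 : (fun x : ℝ => K * Real.log (x + 1) + Real.log 4) =o[atTop] (fun x : ℝ => x) := by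
          refine Asymptotics.IsLittleO.add (Asymptotics.IsLittleO.const_mul_left ?_ _) ?_
          · have h3 := Real.isLittleO_log_id_atTop.comp_tendsto
              (tendsto_atTop_add_const_right atTop (1 : ℝ) tendsto_id)
            refine h3.trans_isBigO ?_
            refine Asymptotics.IsBigO.of_bound 2 ?_
            filter_upwards [eventually_ge_atTop (1 : ℝ)] with x hx
            simp only [Function.comp_apply, id_eq, Real.norm_eq_abs]
            rw [abs_of_nonneg (by linarith), abs_of_nonneg (by linarith)]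
            linarith
          · exact Asymptotics.isLittleO_const_id_atTop _
        exact h2.tendsto_div_nhds_zero
      exact h1.comp hn
    have h8 := le_of_tendsto_of_tendsto hL hR hineq
    rw [add_zero] at h8
    exact h8
  -- ε, κ → 0
  refine le_of_forall_pos_le_add fun ε hε => ?_
  have hk' : (0 : ℝ) < k := by exact_mod_cast hk
  have h1 := key (ε / 2) (by positivity) (ε / k) (by positivity)
  have h2 : (1 - ε / k) * k / 2 = k / 2 - ε / 2 := by
    field_simp
  rw [h2] at h1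
  linarith

end Vale.Agent.P156.H814
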