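import Vale.Agent.P156.H814.D4
import Vale.Agent.P156.H653.Defs

/-!
# P156, D4: the entropy inequality for limits of almost eigenvectors
-/

open MeasureTheory ProbabilityTheory Matrix Set Filter Topology
open scoped ENNReal NNReal Kronecker

noncomputable section

namespace Vale.Agent.P156.H814

open Vale.Agent.P156 Vale.Agent.P156.H801 Vale.Agent.P156.H690 Vale.Agent.P156.H877

/-- The covariance of the Gaussian wave on the star. -/
def SigStar (d : ℕ) (lam : ℝ) : Matrix (Option (Fin d)) (Option (Fin d)) ℝ :=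
  Matrix.of fun x y => if x = y then 1 else if x = none ∨ y = none then lam / d
    else (lam ^ 2 - d) / (d * (d - 1))

/-- Facts about the tree resolvent on the star (block of helper904), `d = q + 1`. -/
structure SpecKz (q : ℕ) (lam : ℝ) : Prop where
  ex : ∀ l, ∃ m, IsTreeStieltjes (q + 1) (zl lam l) m
  U : ∀ m : ℕ → ℂ, (∀ l, IsTreeStieltjes (q + 1) (zl lam l) (m l)) →
    Tendsto (fun l => Um (q + 1) (m l)) atTop (𝓝 (H653.Uval q lam))
  pos : ∀ l m, IsTreeStieltjes (q + 1) (zl lam l) m → 0 < (Kz (q + 1) (zl lam l) m none none).im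
  pd : ∀ l m, IsTreeStieltjes (q + 1) (zl lam l) m →
    (Matrix.of fun x y => (Kz (q + 1) (zl lam l) m x y).im).PosDef
  lim : ∀ m : ℕ → ℂ, (∀ l, IsTreeStieltjes (q + 1) (zl lam l) (m l)) → ∀ x y,
    Tendsto (fun l => (Kz (q + 1) (zl lam l) (m l) x y).im /
      (Kz (q + 1) (zl lam l) (m l) none none).im) atTop (𝓝 (SigStar (q + 1) lam x y))
  pdr : ((SigStar (q + 1) lam).submatrix (Option.map Fin.castSucc)
    (Option.map Fin.castSucc) : Matrix (Option (Fin q)) (Option (Fin q)) ℝ).PosDef
  pde : ((SigStar (q + 1) lam).submatrix (Option.map fun _ : Fin 1 => 0)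
    (Option.map fun _ : Fin 1 => 0)).PosDef
  wv : ∀ l m, IsTreeStieltjes (q + 1) (zl lam l) m →
    ∑ x, ∑ y, wv lam x * wv lam y * (Kz (q + 1) (zl lam l) m x y).im ≤ 1 / ((l : ℝ) + 1)

theorem fullS_tendsto {N : Type*} {k : ℕ} {J : Type*} {l : Filter J} {T : J → Matrix N N ℝ}
    {S : Matrix N N ℝ} (h : ∀ x y, Tendsto (fun j => T j x y) l (𝓝 (S x y))) :
    Tendsto (fun j => fullS k (T j)) l (𝓝 (fullS k S)) := by
  refine tendsto_pi_nhds.mpr fun p => tendsto_pi_nhds.mpr fun q => ?_
  unfold fullS
  simp only [Matrix.of_apply]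
  split_ifs
  · exact h _ _
  · exact tendsto_const_nhds

theorem integrable_sq_map {ι ι' : Type*} [Fintype ι] [Fintype ι'] {X : Measure (ι → ℝ)}
    (hX2 : Integrable (fun x => ‖x‖ ^ 2) X) (r : ι' → ι) :
    Integrable (fun x => ‖x‖ ^ 2) (X.map fun x (p : ι') => x (r p)) := by
  have hmeas : Measurable (fun (x : ι → ℝ) (p : ι') => x (r p)) :=
    measurable_pi_lambda _ fun i => measurable_pi_apply _
  rw [integrable_map_measure (by fun_prop) hmeas.aemeasurable]
  refine hX2.mono' ?_ (ae_of_all _ fun x => ?_)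
  · exact ((measurable_norm.comp hmeas).pow_const 2).aestronglyMeasurable
  · simp only [Function.comp_apply]
    rw [Real.norm_eq_abs, abs_of_nonneg (by positivity)]
    refine pow_le_pow_left₀ (norm_nonneg _) ?_ 2
    refine (pi_norm_le_iff_of_nonneg (norm_nonneg _)).mpr fun p => ?_
    exact norm_le_pi_norm x _

theorem isProb_map {ι ι' : Type*} {X : Measure (ι → ℝ)} [IsProbabilityMeasure X] (r : ι' → ι) :
    IsProbabilityMeasure (X.map fun x (p : ι') => x (r p)) :=
  Measure.isProbabilityMeasure_map
    (measurable_pi_lambda _ fun _ => measurable_pi_apply _).aemeasurable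

theorem castSucc_inj (q : ℕ) : Function.Injective
    (Option.map Fin.castSucc : Option (Fin q) → Option (Fin (q + 1))) :=
  Option.map_injective (Fin.castSucc_injective q)

theorem edge_inj (q : ℕ) : Function.Injective
    (Option.map (fun _ : Fin 1 => (0 : Fin (q + 1)))) := by
  refine Option.map_injective fun a b _ => Subsingleton.elim a b

/-- **D4**: limits of the star laws of almost eigenvectors satisfy the entropy inequality. -/
theorem d4_main (hE2 : SpecE2) (hE4 : SpecE4) {q k : ℕ} (hk : 0 < k) {lam : ℝ}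
    (hK : SpecKz q lam) {n : ℕ → ℕ} {G : ∀ j, SimpleGraph (Fin (n j))}
    (hT : TypSeq (q + 1) k lam n G) (f : ∀ j, Fin (n j) → Fin k → ℝ)
    (hf : ∀ j, ∑ v, ∑ a, f j v a ^ 2 ≤ k * n j)
    (X : Measure (Option (Fin (q + 1)) × Fin k → ℝ)) [IsProbabilityMeasure X]
    (hX2 : Integrable (fun x => ‖x‖ ^ 2) X)
    (hXT : ∀ᵐ x ∂X, ∀ a, ∑ i, x (some i, a) = lam * x (none, a))
    (hX : ∀ ψ : BoundedContinuousFunction (Option (Fin (q + 1)) × Fin k → ℝ) ℝ,
      Tendsto (fun j => avg (starsF (q + 1) (G j)) (fun p => ψ (onStar (f j) p))) atTop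
        (𝓝 (∫ x, ψ x ∂X)))
    {t : ℝ} (ht : 0 < t) :
    -(k * H653.Uval q lam) ≤
      hh (X.map fun x (p : Option (Fin q) × Fin k) => x (p.1.map Fin.castSucc, p.2))
        (fullS k ((t • SigStar (q + 1) lam).submatrix (Option.map Fin.castSucc)
          (Option.map Fin.castSucc))) -
      ((q + 1 : ℕ) : ℝ) / 2 *
      hh (X.map fun x (p : Option (Fin 1) × Fin k) => x (p.1.map (fun _ => 0), p.2))
        (fullS k ((t • SigStar (q + 1) lam).submatrix (Option.map fun _ : Fin 1 => 0)
          (Option.map fun _ : Fin 1 => 0))) := by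
  choose m hm using hK.ex
  -- positive definiteness of SigL
  have hSigL : ∀ l, SigL (q + 1) t (zl lam l) (m l) =
      (t / (Kz (q + 1) (zl lam l) (m l) none none).im) •
        Matrix.of fun x y => (Kz (q + 1) (zl lam l) (m l) x y).im := by
    intro l
    ext x y
    unfold SigL
    rw [Matrix.smul_apply, Matrix.of_apply, Matrix.of_apply, smul_eq_mul]
    ring
  have hpd : ∀ l, (SigL (q + 1) t (zl lam l) (m l)).PosDef := by
    intro l
    rw [hSigL l]
    exact (hK.pd l (m l) (hm l)).smul (div_pos ht (hK.pos l _ (hm l)))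
  -- inequality at level l
  have hl : ∀ l, -(k * Um (q + 1) (m l)) ≤
      hh (X.map fun x (p : Option (Fin q) × Fin k) => x (p.1.map Fin.castSucc, p.2))
        (fullS k ((SigL (q + 1) t (zl lam l) (m l)).submatrix (Option.map Fin.castSucc)
          (Option.map Fin.castSucc))) -
      ((q + 1 : ℕ) : ℝ) / 2 *
      hh (X.map fun x (p : Option (Fin 1) × Fin k) => x (p.1.map (fun _ => 0), p.2))
        (fullS k ((SigL (q + 1) t (zl lam l) (m l)).submatrix (Option.map fun _ : Fin 1 => 0)
          (Option.map fun _ : Fin 1 => 0))) := by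
    intro l
    have hp := hK.pos l _ (hm l)
    have h1 := d4_fixed hE2 hk hT f hf X hX2 hX ht l (m l) (hm l) hp (hpd l)
    have h2 := hE4 q k lam X (SigL (q + 1) t (zl lam l) (m l)) hX2 hXT (hpd l)
    set ρ2 := ∑ x, ∑ y, wv lam x * wv lam y * SigL (q + 1) t (zl lam l) (m l) x y with hρ2
    have hτ := tauL_pos (d := q + 1) ht l hp
    have hτ2 := tauL_sq (d := q + 1) ht l hp
    have hle : ρ2 ≤ tauL (q + 1) t l (zl lam l) (m l) ^ 2 := by
      have h3 := hK.wv l _ (hm l)
      have h4 : ρ2 = (t / (Kz (q + 1) (zl lam l) (m l) none none).im) *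
          ∑ x, ∑ y, wv lam x * wv lam y * (Kz (q + 1) (zl lam l) (m l) x y).im := by
        rw [hρ2, Finset.mul_sum]
        refine Finset.sum_congr rfl fun x _ => ?_
        rw [Finset.mul_sum]
        refine Finset.sum_congr rfl fun y _ => ?_
        unfold SigL
        rw [Matrix.of_apply]
        ring
      rw [h4, hτ2]
      calc _ ≤ (t / (Kz (q + 1) (zl lam l) (m l) none none).im) * (1 / ((l : ℝ) + 1)) :=
            mul_le_mul_of_nonneg_left h3 (by positivity)
        _ = _ := by ring
    have hρpos : 0 < ρ2 := by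
      have h3 := (hpd l).dotProduct_mulVec_pos (x := (wv lam : Option (Fin (q + 1)) → ℝ)) (by
        intro h
        have := congrFun h (some 0)
        simp [wv] at this)
      have h4 : star (wv lam : Option (Fin (q + 1)) → ℝ) ⬝ᵥ
          (SigL (q + 1) t (zl lam l) (m l)) *ᵥ (wv lam) = ρ2 := by
        rw [hρ2]
        simp only [dotProduct, Matrix.mulVec, star_trivial]
        refine Finset.sum_congr rfl fun x _ => ?_
        rw [Finset.mul_sum]
        refine Finset.sum_congr rfl fun y _ => ?_
        ring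
      rw [← h4]
      exact h3
    have hlog : Real.log ρ2 ≤ 2 * Real.log (tauL (q + 1) t l (zl lam l) (m l)) := by
      have h3 := Real.log_le_log hρpos hle
      rw [Real.log_pow] at h3
      push_cast at h3
      exact h3
    have hk' : (0 : ℝ) < k := by exact_mod_cast hk
    have h5 : (k : ℝ) / 2 * (Real.log (2 * Real.pi) + 1 + Real.log ρ2) ≤
        (k : ℝ) / 2 * (Real.log (2 * Real.pi) + 1 +
          2 * Real.log (tauL (q + 1) t l (zl lam l) (m l))) := by
      refine mul_le_mul_of_nonneg_left ?_ (by positivity)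
      linarith
    linarith
  -- limits
  have hentry : ∀ x y, Tendsto (fun l => SigL (q + 1) t (zl lam l) (m l) x y) atTop
      (𝓝 ((t • SigStar (q + 1) lam) x y)) := by
    intro x y
    have h1 := (hK.lim m hm x y).const_mul t
    exact h1
  have hpr : ((t • SigStar (q + 1) lam).submatrix (Option.map Fin.castSucc)
      (Option.map Fin.castSucc) : Matrix (Option (Fin q)) (Option (Fin q)) ℝ).PosDef := by
    rw [Matrix.submatrix_smul]
    exact hK.pdr.smul ht
  have hpe : ((t • SigStar (q + 1) lam).submatrix (Option.map fun _ : Fin 1 => 0)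
      (Option.map fun _ : Fin 1 => 0)).PosDef := by
    rw [Matrix.submatrix_smul]
    exact hK.pde.smul ht
  have hXr : IsProbabilityMeasure
      (X.map fun x (p : Option (Fin q) × Fin k) => x (p.1.map Fin.castSucc, p.2)) :=
    isProb_map _
  have hXe : IsProbabilityMeasure
      (X.map fun x (p : Option (Fin 1) × Fin k) => x (p.1.map (fun _ => 0), p.2)) :=
    isProb_map _
  have hlim1 : Tendsto (fun l => hh
      (X.map fun x (p : Option (Fin q) × Fin k) => x (p.1.map Fin.castSucc, p.2))
        (fullS k ((SigL (q + 1) t (zl lam l) (m l)).submatrix (Option.map Fin.castSucc)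
          (Option.map Fin.castSucc)))) atTop (𝓝 (hh
      (X.map fun x (p : Option (Fin q) × Fin k) => x (p.1.map Fin.castSucc, p.2))
        (fullS k ((t • SigStar (q + 1) lam).submatrix (Option.map Fin.castSucc)
          (Option.map Fin.castSucc))))) := by
    refine tendsto_hh (integrable_sq_map hX2 _) (fullS_posDef k hpr) ?_ ?_
    · exact fullS_tendsto fun x y => hentry _ _
    · exact Eventually.of_forall fun l =>
        fullS_posDef k ((hpd l).submatrix (castSucc_inj q))
  have hlim2 : Tendsto (fun l => hh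
      (X.map fun x (p : Option (Fin 1) × Fin k) => x (p.1.map (fun _ => 0), p.2))
        (fullS k ((SigL (q + 1) t (zl lam l) (m l)).submatrix (Option.map fun _ : Fin 1 => 0)
          (Option.map fun _ : Fin 1 => 0)))) atTop (𝓝 (hh
      (X.map fun x (p : Option (Fin 1) × Fin k) => x (p.1.map (fun _ => 0), p.2))
        (fullS k ((t • SigStar (q + 1) lam).submatrix (Option.map fun _ : Fin 1 => 0)
          (Option.map fun _ : Fin 1 => 0))))) := by
    refine tendsto_hh (integrable_sq_map hX2 _) (fullS_posDef k hpe) ?_ ?_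
    · exact fullS_tendsto fun x y => hentry _ _
    · exact Eventually.of_forall fun l =>
        fullS_posDef k ((hpd l).submatrix (edge_inj q))
  have hlim0 : Tendsto (fun l => -(k * Um (q + 1) (m l))) atTop (𝓝 (-(k * H653.Uval q lam))) :=
    ((hK.U m hm).const_mul _).neg
  exact le_of_tendsto_of_tendsto' hlim0 (hlim1.sub (hlim2.const_mul _)) hl

end Vale.Agent.P156.H814
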