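import Vale.Agent.P156.H814.D4Main
import Vale.Agent.P156.H904.StarCov
import Vale.Agent.P156.H877.E2
import Vale.Agent.P156.H613.BridgeFent
import Vale.Agent.P156.H574.E4

/-!
# P156, D4: final form, in terms of `Fent`
-/

open MeasureTheory ProbabilityTheory Matrix Set Filter Topology
open scoped ENNReal NNReal Kronecker

noncomputable section

namespace Vale.Agent.P156.H814

open Vale.Agent.P156 Vale.Agent.P156.H690 Vale.Agent.P156.H877 _root_.P156.H613

theorem specE2 : SpecE2 := by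
  intro ι _ _ X _ S hX hS
  exact H877.tendsto_entropy_sm hS hX

theorem specE4 : SpecE4 := by
  intro q k lam X _ Sig hX hXT hSig
  exact H574.E4 lam X hX hXT Sig hSig (fullS k Sig) (fun _ _ => rfl)
    (fullS k (Sig.submatrix (Option.map Fin.castSucc) (Option.map Fin.castSucc))) (fun _ _ => rfl)

theorem bulk_q {q : ℕ} {lam : ℝ} (hlam : |lam| < 2 * Real.sqrt q) :
    |lam| < 2 * Real.sqrt (((q + 1 : ℕ) : ℝ) - 1) := by
  push_cast
  rwa [add_sub_cancel_right]

theorem specKz {q : ℕ} (hq : 2 ≤ q) {lam : ℝ} (hlam : |lam| < 2 * Real.sqrt q) :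
    SpecKz q lam where
  ex l := H904.L1 (by omega) lam l
  U m hm := H904.L2 hq (bulk_q hlam) hm
  pos l m hm := H904.im_md_pos hm (by rw [zl_im]; positivity)
  pd l m hm := H904.posDef_Kz hm (by rw [zl_im]; positivity)
  lim m hm x y := H904.L3 (by omega) (bulk_q hlam) hm x y
  pdr := H904.L5_star hq (bulk_q hlam)
  pde := H904.L5_edge hq (bulk_q hlam)
  wv l m hm := H904.L6 lam l hm

theorem lam_sq_le {q : ℕ} {lam : ℝ} (hlam : |lam| < 2 * Real.sqrt q) :
    lam ^ 2 ≤ ((q : ℝ) + 1) ^ 2 := by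
  have h1 : lam ^ 2 < 4 * q := by
    have h2 := abs_nonneg lam
    have h3 : |lam| ^ 2 < (2 * Real.sqrt q) ^ 2 := pow_lt_pow_left₀ hlam h2 (by norm_num)
    rw [sq_abs, mul_pow, Real.sq_sqrt (Nat.cast_nonneg q)] at h3
    linarith
  nlinarith [sq_nonneg ((q : ℝ) - 1)]

/-- **D4**, final form: limits of the star laws of almost eigenvectors of typical graphs satisfy
the entropy inequality at all times. -/
theorem fent_ge {q k : ℕ} (hq : 2 ≤ q) (hk : 0 < k) {lam : ℝ}
    (hlam : |lam| < 2 * Real.sqrt q) {n : ℕ → ℕ} {G : ∀ j, SimpleGraph (Fin (n j))}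
    (hT : TypSeq (q + 1) k lam n G) (f : ∀ j, Fin (n j) → Fin k → ℝ)
    (hf : ∀ j, ∑ v, ∑ a, f j v a ^ 2 ≤ k * n j)
    (X : Measure (Option (Fin (q + 1)) × Fin k → ℝ)) [IsProbabilityMeasure X]
    (hX2 : Integrable (fun x => ‖x‖ ^ 2) X)
    (hXT : ∀ᵐ x ∂X, ∀ a, ∑ i, x (some i, a) = lam * x (none, a))
    (hX : ∀ ψ : BoundedContinuousFunction (Option (Fin (q + 1)) × Fin k → ℝ) ℝ,
      Tendsto (fun j => avg (starsF (q + 1) (G j)) (fun p => ψ (onStar (f j) p))) atTop
        (𝓝 (∫ x, ψ x ∂X)))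
    {t : ℝ} (ht : 0 < t) :
    -(k * H653.Uval q lam) ≤ H653.Fent lam (X.map (starE (q + 1) k)) t := by
  have h := d4_main specE2 specE4 hk (specKz hq hlam) hT f hf X hX2 hXT hX ht
  rw [fent_eq (by omega) (lam_sq_le hlam) ht X (specKz hq hlam).pdr (specKz hq hlam).pde]
  have e1 : fullS k ((t • SigStar (q + 1) lam).submatrix (Option.map Fin.castSucc)
          (Option.map Fin.castSucc)) =
      t • ((SigS (q + 1) lam).submatrix (Option.map Fin.castSucc)
        (Option.map (Fin.castSucc : Fin q → Fin (q + 1))) ⊗ₖ (1 : Matrix (Fin k) (Fin k) ℝ)) := by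
    rw [fullS_eq]
    ext ⟨x, a⟩ ⟨y, b⟩
    simp only [Matrix.kroneckerMap_apply, Matrix.submatrix_apply, Matrix.smul_apply,
      smul_eq_mul, mul_assoc]
    rfl
  have e2 : fullS k ((t • SigStar (q + 1) lam).submatrix (Option.map fun _ : Fin 1 => 0)
          (Option.map fun _ : Fin 1 => 0)) =
      t • ((SigS (q + 1) lam).submatrix (Option.map fun _ : Fin 1 => (0 : Fin (q + 1)))
        (Option.map fun _ : Fin 1 => (0 : Fin (q + 1))) ⊗ₖ (1 : Matrix (Fin k) (Fin k) ℝ)) := by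
    rw [fullS_eq]
    ext ⟨x, a⟩ ⟨y, b⟩
    simp only [Matrix.kroneckerMap_apply, Matrix.submatrix_apply, Matrix.smul_apply,
      smul_eq_mul, mul_assoc]
    rfl
  rw [e1, e2] at h
  push_cast at h
  exact h

end Vale.Agent.P156.H814
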