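import Vale.Agent.P156.H924.LLN

/-!
# P156, D7: averages over the stars of a regular graph
-/

open Finset

noncomputable section

namespace Vale.Agent.P156.H814

open Vale.Agent.P156 Vale.Agent.P156.H490 Vale.Agent.P156.H924

variable {n d : ℕ} {G : SimpleGraph (Fin n)}

theorem mem_starsF {p : Fin n × (Fin d → Fin n)} : p ∈ starsF d G ↔ IsStar G p.1 p.2 := by
  classical
  simp [starsF]

theorem starsF_nonempty (hG : G ∈ regularGraphs n d) (hn : 0 < n) : (starsF d G).Nonempty := by
  rw [← card_pos, card_starsF hG]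
  positivity

theorem avg_nd (hG : G ∈ regularGraphs n d)
    (x : Option (Fin d)) (g : Fin n → ℝ) :
    avg (starsF d G) (fun p => g (nd p x)) = (∑ v, g v) / n := by
  rw [starsF_eq]
  exact avg_star_vtx hG g x

theorem avg_perm (σ : Equiv.Perm (Fin d)) (Φ : Fin n × (Fin d → Fin n) → ℝ) :
    avg (starsF d G) (fun p => Φ (p.1, p.2 ∘ σ)) = avg (starsF d G) Φ := by
  unfold avg
  congr 1
  refine Finset.sum_nbij' (fun s => (s.1, s.2 ∘ σ)) (fun s => (s.1, s.2 ∘ σ.symm)) ?_ ?_ ?_ ?_ ?_
  · intro s hs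
    rw [mem_starsF] at hs ⊢
    exact isStar_comp hs _
  · intro s hs
    rw [mem_starsF] at hs ⊢
    exact isStar_comp hs _
  · intro s _
    ext1
    · rfl
    · funext i; simp
  · intro s _
    ext1
    · rfl
    · funext i; simp
  · intro s _
    rfl

theorem sum_leaves {p : Fin n × (Fin d → Fin n)} (hp : p ∈ starsF d G)
    (g : Fin n → ℝ) : ∑ i, g (p.2 i) = ∑ w, adj G p.1 w * g w := by
  classical
  rw [mem_starsF] at hp
  have h1 : ∑ w, adj G p.1 w * g w = ∑ w, if G.Adj p.1 w then g w else 0 := by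
    refine sum_congr rfl fun w _ => ?_
    unfold adj
    rw [SimpleGraph.adjMatrix_apply]
    split_ifs <;> simp
  rw [h1, ← Finset.sum_filter]
  refine Finset.sum_nbij p.2 ?_ ?_ ?_ ?_
  · intro a _
    simpa using (hp.2 (p.2 a)).2 ⟨a, rfl⟩
  · intro a _ b _ hab
    exact hp.1 hab
  · intro w hw
    simp only [Finset.coe_filter, Finset.mem_univ, true_and, Set.mem_ofPred_eq] at hw
    obtain ⟨k, hk⟩ := (hp.2 w).1 hw
    exact ⟨k, by simp, hk⟩
  · intro _ _; rfl

theorem adj_symm' (G : SimpleGraph (Fin n)) (v w : Fin n) : adj G v w = adj G w v := by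
  classical
  unfold adj
  rw [SimpleGraph.adjMatrix_apply, SimpleGraph.adjMatrix_apply]
  simp only [G.adj_comm]

theorem avg_edge (hG : G ∈ regularGraphs n d) (i : Fin d) (g : Fin n → Fin n → ℝ) :
    (d : ℝ) * avg (starsF d G) (fun p => g p.1 (p.2 i)) = (∑ v, ∑ w, adj G v w * g v w) / n := by
  have h1 : ∀ k : Fin d, avg (starsF d G) (fun p => g p.1 (p.2 k)) =
      avg (starsF d G) (fun p => g p.1 (p.2 i)) := by
    intro k
    rw [← avg_perm (Equiv.swap k i) (fun p => g p.1 (p.2 k))]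
    congr 1
    funext p
    simp
  have h2 : (d : ℝ) * avg (starsF d G) (fun p => g p.1 (p.2 i)) =
      ∑ k : Fin d, avg (starsF d G) (fun p => g p.1 (p.2 k)) := by
    rw [Finset.sum_congr rfl fun k _ => h1 k]
    simp
  rw [h2]
  unfold avg
  rw [← Finset.sum_div, Finset.sum_comm]
  have h3 : ∑ p ∈ starsF d G, ∑ k, g p.1 (p.2 k) =
      ∑ p ∈ starsF d G, (fun v => ∑ w, adj G v w * g v w) (nd p none) :=
    Finset.sum_congr rfl fun p hp => sum_leaves hp (g p.1)
  rw [h3]
  exact avg_nd hG none fun v => ∑ w, adj G v w * g v w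

theorem avg_swap (hG : G ∈ regularGraphs n d)
    (i : Fin d) (g : Fin n → Fin n → ℝ) :
    avg (starsF d G) (fun p => g p.1 (p.2 i)) = avg (starsF d G) (fun p => g (p.2 i) p.1) := by
  have hd : (d : ℝ) ≠ 0 := by
    have := i.pos
    positivity
  apply mul_left_cancel₀ hd
  rw [avg_edge hG i g, avg_edge hG i fun v w => g w v]
  congr 1
  rw [Finset.sum_comm]
  refine Finset.sum_congr rfl fun v _ => Finset.sum_congr rfl fun w _ => ?_
  rw [adj_symm']

end Vale.Agent.P156.H814
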