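import Vale.Agent.P156.H814.Final
import Vale.Agent.P156.H266.Limit
import Vale.Agent.P156.H814.StarAvg

/-!
# P156, D7, part 1: properties of the limits of star laws
-/

open MeasureTheory ProbabilityTheory Matrix Set Filter Topology
open scoped ENNReal NNReal

noncomputable section

namespace Vale.Agent.P156.H814

open Vale.Agent.P156 Vale.Agent.P156.H690 Vale.Agent.P156.H877 Vale.Agent.P156.H849
  Vale.Agent.P156.H653 Vale.Agent.P156.Lim _root_.P156.H613

/-! ### Subsequences -/

variable {q d k : ℕ} {lam : ℝ} {n : ℕ → ℕ} {G : ∀ j, SimpleGraph (Fin (n j))}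

theorem TypSeq.comp (hT : TypSeq d k lam n G) {φ : ℕ → ℕ} (hφ : StrictMono φ) :
    TypSeq d k lam (fun j => n (φ j)) (fun j => G (φ j)) where
  reg j := hT.reg _
  pos j := hT.pos _
  lim := hT.lim.comp hφ.tendsto_atTop
  cnt m := by
    obtain ⟨K, hK⟩ := hT.cnt m
    exact ⟨K, hφ.tendsto_atTop.eventually hK⟩
  cov l m hm x y := (hT.cov l m hm x y).comp hφ.tendsto_atTop
  det l m hm := (hT.det l m hm).comp hφ.tendsto_atTop

/-! ### Properties of limit laws -/

/-- Convergence of the star laws. -/
def StarLim (d k : ℕ) (n : ℕ → ℕ) (G : ∀ j, SimpleGraph (Fin (n j)))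
    (f : ∀ j, Fin (n j) → Fin k → ℝ) (X : Measure (Option (Fin d) × Fin k → ℝ)) : Prop :=
  IsLimitLaw atTop (fun j => starsF d (G j)) (fun j p => onStar (f j) p) X

variable {f : ∀ j, Fin (n j) → Fin k → ℝ}

/-- The residual functional on a flat star. -/
def resid (d k : ℕ) (lam : ℝ) (x : Option (Fin d) × Fin k → ℝ) : ℝ :=
  ∑ a, (∑ i : Fin d, x (some i, a) - lam * x (none, a)) ^ 2

theorem resid_nonneg (d k : ℕ) (lam : ℝ) (x : Option (Fin d) × Fin k → ℝ) :
    0 ≤ resid d k lam x := Finset.sum_nonneg fun _ _ => sq_nonneg _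

theorem continuous_resid (d k : ℕ) (lam : ℝ) : Continuous (resid d k lam) := by
  unfold resid
  fun_prop

/-- The limit law lives on the solutions of the eigenvalue equation. -/
theorem StarLim.support {X : Measure (Option (Fin d) × Fin k → ℝ)} [IsProbabilityMeasure X]
    (hX : StarLim d k n G f X) (hG : ∀ j, G j ∈ regularGraphs (n j) d) (hn : ∀ j, 0 < n j)
    {δ : ℕ → ℝ} (hδ : Tendsto δ atTop (𝓝 0))
    (hf : ∀ j, ∑ v, ∑ a, ((∑ w, adj (G j) v w * f j w a) - lam * f j v a) ^ 2 ≤ δ j * n j) :
    ∀ᵐ x ∂X, ∀ a, ∑ i, x (some i, a) = lam * x (none, a) := by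
  let ψ : BoundedContinuousFunction (Option (Fin d) × Fin k → ℝ) ℝ :=
    BoundedContinuousFunction.ofNormedAddCommGroup (fun x => min 1 (resid d k lam x))
      (continuous_const.min (continuous_resid d k lam)) 1 (by
        intro x
        rw [Real.norm_eq_abs, abs_of_nonneg (le_min zero_le_one (resid_nonneg d k lam x))]
        exact min_le_left _ _)
  have hψ : ∀ x, ψ x = min 1 (resid d k lam x) := fun x => rfl
  have h0 : ∀ x, 0 ≤ ψ x := fun x => by
    rw [hψ]; exact le_min zero_le_one (resid_nonneg d k lam x)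
  have h1 := hX ψ
  have h2 : ∀ j, avg (starsF d (G j)) (fun p => ψ (onStar (f j) p)) ≤ δ j := by
    intro j
    set g : Fin (n j) → ℝ := fun v =>
      ∑ a, ((∑ w, adj (G j) v w * f j w a) - lam * f j v a) ^ 2 with hg
    have h3 : avg (starsF d (G j)) (fun p => ψ (onStar (f j) p)) ≤
        avg (starsF d (G j)) (fun p => g (nd p none)) := by
      refine avg_mono _ fun p hp => ?_
      rw [hψ]
      refine (min_le_right _ _).trans (le_of_eq ?_)
      unfold resid
      refine Finset.sum_congr rfl fun a _ => ?_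
      congr 2
      exact sum_leaves hp fun w => f j w a
    rw [avg_nd (hG j) none g] at h3
    refine h3.trans ?_
    rw [div_le_iff₀ (by exact_mod_cast hn j)]
    exact hf j
  have h3 : ∀ j, 0 ≤ avg (starsF d (G j)) (fun p => ψ (onStar (f j) p)) := by
    intro j
    unfold avg
    exact div_nonneg (Finset.sum_nonneg fun _ _ => h0 _) (Nat.cast_nonneg _)
  have h4 := squeeze_zero h3 h2 hδ
  have h5 : ∫ x, ψ x ∂X = 0 := tendsto_nhds_unique h1 h4
  have h6 : ψ =ᵐ[X] 0 := by
    rwa [integral_eq_zero_iff_of_nonneg h0 (ψ.integrable X)] at h5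
  filter_upwards [h6] with x hx a
  have h7 : resid d k lam x = 0 := by
    have h8 : min 1 (resid d k lam x) = 0 := hx
    rcases min_choice 1 (resid d k lam x) with h | h
    · rw [h] at h8; norm_num at h8
    · rwa [h] at h8
  have h9 := (Finset.sum_eq_zero_iff_of_nonneg fun _ _ => sq_nonneg _).mp h7 a (Finset.mem_univ a)
  have h10 := pow_eq_zero_iff (two_ne_zero) |>.mp h9
  linarith

/-- The map from flat stars to edges. -/
def edgeF (l : Fin d) (x : Option (Fin d) × Fin k → ℝ) : Ek k × Ek k :=
  (WithLp.toLp 2 fun a => x (none, a), WithLp.toLp 2 fun a => x (some l, a))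

theorem continuous_edgeF (l : Fin d) : Continuous (edgeF (k := k) l) := by
  unfold edgeF
  refine Continuous.prodMk ?_ ?_
  · exact (PiLp.continuous_toLp 2 _).comp (by fun_prop)
  · exact (PiLp.continuous_toLp 2 _).comp (by fun_prop)

theorem edgeP_starE (X : Measure (Option (Fin (q + 1)) × Fin k → ℝ)) (l : Fin (q + 1)) :
    (X.map (starE (q + 1) k)).map (edgeP l) = X.map (edgeF l) := by
  have hm : Measurable (edgeP (q := q) (k := k) l) := by
    unfold edgeP
    exact measurable_fst.prodMk ((measurable_pi_apply l).comp measurable_snd)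
  rw [Measure.map_map hm (starE (q + 1) k).measurable]
  rfl

/-- The edge laws do not depend on the leaf. -/
theorem StarLim.edge_eq {X : Measure (Option (Fin d) × Fin k → ℝ)} [IsProbabilityMeasure X]
    (hX : StarLim d k n G f X) (hG : ∀ j, G j ∈ regularGraphs (n j) d) (hn : ∀ j, 0 < n j)
    (l l' : Fin d) : X.map (edgeF l) = X.map (edgeF l') := by
  have := Measure.isProbabilityMeasure_map (μ := X) (continuous_edgeF (k := k) l).measurable.aemeasurable
  have := Measure.isProbabilityMeasure_map (μ := X) (continuous_edgeF (k := k) l').measurable.aemeasurable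
  have h1 := IsLimitLaw.map_continuous hX (continuous_edgeF l)
  have h2 := IsLimitLaw.map_continuous hX (continuous_edgeF l')
  refine IsLimitLaw.eq_of_tendsto_sub h1 h2 fun F => ?_
  refine tendsto_const_nhds.congr fun j => ?_
  rw [← avg_perm (Equiv.swap l l') fun p => F (edgeF l (onStar (f j) p)), eq_comm,
    sub_eq_zero]
  congr 1
  funext p
  congr 1
  unfold edgeF onStar nd
  simp

/-- The edge laws are symmetric. -/
theorem StarLim.edge_swap {X : Measure (Option (Fin d) × Fin k → ℝ)} [IsProbabilityMeasure X]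
    (hX : StarLim d k n G f X) (hG : ∀ j, G j ∈ regularGraphs (n j) d) (hn : ∀ j, 0 < n j)
    (l : Fin d) : (X.map (edgeF l)).map Prod.swap = X.map (edgeF l) := by
  have := Measure.isProbabilityMeasure_map (μ := X) (continuous_edgeF (k := k) l).measurable.aemeasurable
  have := Measure.isProbabilityMeasure_map (μ := X.map (edgeF l)) (measurable_swap (α := Ek k) (β := Ek k)).aemeasurable
  have h1 := IsLimitLaw.map_continuous hX (continuous_edgeF l)
  have h2 := IsLimitLaw.map_continuous h1 continuous_swap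
  refine IsLimitLaw.eq_of_tendsto_sub h2 h1 fun F => ?_
  refine tendsto_const_nhds.congr fun j => ?_
  rw [eq_comm, sub_eq_zero]
  exact (avg_swap (hG j) l fun v w =>
    F (WithLp.toLp 2 (f j v), WithLp.toLp 2 (f j w))).symm

/-- The uniform second moment bound. -/
theorem avg_normsq_le (hG : ∀ j, G j ∈ regularGraphs (n j) d) (hn : ∀ j, 0 < n j)
    (hf : ∀ j, ∑ v, ∑ a, f j v a ^ 2 ≤ k * n j) (j : ℕ) :
    avg (starsF d (G j)) (fun p => ∑ i, onStar (f j) p i ^ 2) ≤ (d + 1) * k := by
  have h1 : avg (starsF d (G j)) (fun p => ∑ i, onStar (f j) p i ^ 2) =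
      ∑ x : Option (Fin d), avg (starsF d (G j)) (fun p => ∑ a, f j (nd p x) a ^ 2) := by
    unfold avg
    rw [← Finset.sum_div]
    congr 1
    refine Eq.trans (Finset.sum_congr rfl fun p _ => ?_) Finset.sum_comm
    have h9 : ∀ F : Option (Fin d) × Fin k → ℝ, ∑ i, F i = ∑ x, ∑ a, F (x, a) :=
      fun F => Fintype.sum_prod_type F
    exact h9 _
  rw [h1]
  have h2 : ∀ x : Option (Fin d), avg (starsF d (G j)) (fun p => ∑ a, f j (nd p x) a ^ 2) ≤ k := by
    intro x
    rw [avg_nd (hG j) x fun v => ∑ a, f j v a ^ 2, div_le_iff₀ (by exact_mod_cast hn j)]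
    exact hf j
  have h3 : ∑ x : Option (Fin d), avg (starsF d (G j)) (fun p => ∑ a, f j (nd p x) a ^ 2) ≤
      ∑ _x : Option (Fin d), (k : ℝ) := Finset.sum_le_sum fun x _ => h2 x
  refine h3.trans ?_
  rw [Finset.sum_const, Finset.card_univ, Fintype.card_option, Fintype.card_fin, nsmul_eq_mul]
  push_cast
  exact le_rfl

end Vale.Agent.P156.H814
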